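import Vale.Agent.P361.LRO.Tw.J.Law2

/-!
P361, block twist, part 10: the joint law of `(J, M)` of a block, with polynomials and
exponentials of the Casimir operator and of the block spin.
-/

namespace Vale.Agent.P361.LRO.TwJ

set_option linter.all false

open Matrix Finset
open scoped ComplexOrder

variable {V : Type} [Fintype V] [DecidableEq V]

/-- `(|b|/2)(|b|/2+1) - S_b²` as a real matrix: it acts by `r (|b| - r + 1)` on
`J = |b|/2 - r`. -/
noncomputable def Om (b : Finset V) : Matrix (V → Fin 2) (V → Fin 2) ℝ := ∑ x ∈ b, ∑ y ∈ b, hM x y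

/-- The number of down spins of the block as a real matrix. -/
noncomputable def Dn (b : Finset V) : Matrix (V → Fin 2) (V → Fin 2) ℝ :=
  ∑ x ∈ b, (1 / 2 : ℝ) • (1 - szM x)

theorem cm_Om (b : Finset V) : cm (Om b) =
    (((b.card : ℝ) / 2 * ((b.card : ℝ) / 2 + 1) : ℝ) : ℂ) • (1 : Opr V) - Cas b := by
  rw [Cas_eq, Om, cm_sum]
  exact Finset.sum_congr rfl fun x _ => cm_sum _ _

theorem cm_Dn (b : Finset V) : cm (Dn b) =
    (((b.card : ℝ) / 2 : ℝ) : ℂ) • (1 : Opr V) - Sg b sz := by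
  rw [Sz_cm, Dn, cm_sum]

theorem comm_cm_aeval {Y : Opr V} {A : Matrix (V → Fin 2) (V → Fin 2) ℝ}
    (h : Y * cm A = cm A * Y) (P : Polynomial ℝ) :
    Y * cm (Polynomial.aeval A P) = cm (Polynomial.aeval A P) * Y := by
  induction P using Polynomial.induction_on with
  | C a =>
    rw [Polynomial.aeval_C, Algebra.algebraMap_eq_smul_one, cm_smul, cm_one, Matrix.mul_smul,
      Matrix.smul_mul, mul_one, one_mul]
  | add p q hp hq => rw [map_add, cm_add, mul_add, add_mul, hp, hq]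
  | monomial n a ih =>
    rw [pow_succ, ← mul_assoc, map_mul, Polynomial.aeval_X, cm_mul, ← mul_assoc, ih, mul_assoc, h,
      mul_assoc]

theorem aeval_mulVec {A : Matrix (V → Fin 2) (V → Fin 2) ℝ} {v : (V → Fin 2) → ℂ} {c : ℝ}
    (h : cm A *ᵥ v = (c : ℂ) • v) (P : Polynomial ℝ) :
    cm (Polynomial.aeval A P) *ᵥ v = ((P.eval c : ℝ) : ℂ) • v := by
  induction P using Polynomial.induction_on with
  | C a =>
    rw [Polynomial.aeval_C, Algebra.algebraMap_eq_smul_one, cm_smul, cm_one, Matrix.smul_mulVec,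
      Matrix.one_mulVec, Polynomial.eval_C]
  | add p q hp hq =>
    rw [map_add, cm_add, Matrix.add_mulVec, hp, hq, Polynomial.eval_add, ← add_smul,
      Complex.ofReal_add]
  | monomial n a ih =>
    rw [pow_succ, ← mul_assoc, map_mul, Polynomial.aeval_X, cm_mul, ← Matrix.mulVec_mulVec, h,
      Matrix.mulVec_smul, ih, smul_smul, Polynomial.eval_mul_X, Complex.ofReal_mul, mul_comm]

/-- Every function of `r` is a polynomial of `r (n - r + 1)`. -/
theorem exists_poly (n : ℕ) (g : ℕ → ℝ) :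
    ∃ P : Polynomial ℝ, ∀ r : ℕ, 2 * r ≤ n → P.eval ((r : ℝ) * ((n : ℝ) - r + 1)) = g r := by
  classical
  have hinj : Set.InjOn (fun r : ℕ => (r : ℝ) * ((n : ℝ) - r + 1))
      ((Finset.range (n / 2 + 1) : Finset ℕ) : Set ℕ) := by
    intro r hr s hs h
    have hr' : r < n / 2 + 1 := Finset.mem_range.1 hr
    have hs' : s < n / 2 + 1 := Finset.mem_range.1 hs
    have h1 : (r : ℝ) + s ≤ n := by
      have : r + s ≤ n := by omega
      exact_mod_cast this
    simp only at h
    have h2 : ((r : ℝ) - s) * ((n : ℝ) + 1 - r - s) = 0 := by linear_combination h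
    rcases mul_eq_zero.1 h2 with h3 | h3
    · exact_mod_cast sub_eq_zero.1 h3
    · exfalso; linarith
  refine ⟨Lagrange.interpolate (Finset.range (n / 2 + 1))
    (fun r : ℕ => (r : ℝ) * ((n : ℝ) - r + 1)) g, fun r hr => ?_⟩
  exact Lagrange.eval_interpolate_at_node g hinj (Finset.mem_range.2 (by omega))

/-- **The joint law with polynomials**: the law of `joint_law`, with the expectations of all
polynomials in the Casimir operator and the block spin. -/
theorem joint_law_poly {W : Matrix (V → Fin 2) (V → Fin 2) ℝ} (hW : W.PosSemidef)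
    (hsym : ∀ σ τ, W σ τ ≠ 0 → ∑ x, ((σ x : ℕ) : ℤ) = ∑ x, ((τ x : ℕ) : ℤ))
    (b : Finset V) :
    ∃ (ι : Type) (_ : Fintype ι) (μ : ι → ℝ) (N r p : ι → ℕ),
      (∀ i, 0 ≤ μ i) ∧ (∀ i, N i + 2 * r i = b.card ∧ p i ≤ N i) ∧
      (∀ P Q : Polynomial ℝ, ∑ i, μ i * (P.eval ((r i : ℝ) * ((b.card : ℝ) - r i + 1)) *
        Q.eval ((r i : ℝ) + p i)) =
          Matrix.trace (W * (Polynomial.aeval (Om b) P * Polynomial.aeval (Dn b) Q))) ∧
      (∀ k : ℝ, 0 ≤ k → ∑ i, μ i * aN k (N i) =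
        Real.cosh (k / 2) ^ b.card / 2 * ∫ φ in (0 : ℝ)..Real.pi,
          Real.sin φ * Matrix.trace (W * rotT b (Real.tanh (k / 2)) φ)) ∧
      (∀ k : ℝ, 0 ≤ k → ∀ m : ℕ, ∑ i, μ i * (aN k (N i) * ((p i : ℝ) / N i) ^ m) ≤
        Real.cosh (k / 2) ^ b.card / 2 * ∫ φ in (0 : ℝ)..Real.pi,
          Real.sin φ * (1 - Real.cos φ) ^ m *
            Matrix.trace (W * rotT b (Real.tanh (k / 2)) φ)) := by
  obtain ⟨R, hR⟩ := cm_factor hW
  obtain ⟨ι, hι, u, hu, hlaw⟩ := law0 b R
  rw [← hR] at hlaw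
  choose N r p hN hp hC hS hK using fun i => joint_all (hu i).1
    (hu i).2.choose_spec.choose_spec.1 (hu i).2.choose_spec.choose_spec.2
  have hsym' : ∀ σ τ, cm W σ τ ≠ 0 → nb univ σ = nb univ τ := by
    intro σ τ h1
    apply hsym
    intro h2
    apply h1
    rw [cm, Matrix.of_apply, h2]; simp
  -- traces of operators acting by real scalars
  have hscal : ∀ (X : Opr V) (y : ι → ℝ), Cas b * X = X * Cas b → Sg b sz * X = X * Sg b sz →
      (∀ i, X *ᵥ u i = ((y i : ℝ) : ℂ) • u i) →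
      (Matrix.trace (cm W * X)).re = ∑ i, (star (u i) ⬝ᵥ u i).re * y i := by
    intro X y h1 h2 h3
    rw [hlaw X h1 h2, Complex.re_sum]
    refine Finset.sum_congr rfl fun i _ => ?_
    rw [h3, dotProduct_smul, smul_eq_mul, Complex.re_ofReal_mul, mul_comm]
  have hT : ∀ k φ, Matrix.trace (cm W * Tw b k φ) =
      ((Real.cosh (k / 2) ^ b.card * Matrix.trace (W * rotT b (Real.tanh (k / 2)) φ) : ℝ) : ℂ) := by
    intro k φ
    rw [Tw_eq, Matrix.mul_smul, Matrix.trace_smul, ← cm_mul, cm_trace, smul_eq_mul,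
      ← Complex.ofReal_mul]
  have hAv : ∀ (k : ℝ) (w : ℝ → ℝ), Continuous w → (Matrix.trace (cm W * Av b k 0 w)).re =
      Real.cosh (k / 2) ^ b.card * ∫ φ in (0 : ℝ)..Real.pi,
        w φ * Matrix.trace (W * rotT b (Real.tanh (k / 2)) φ) := by
    intro k w hw
    rw [trace_Av b k hw hsym']
    have : (∫ θ in (0 : ℝ)..Real.pi, ((w θ : ℝ) : ℂ) * Matrix.trace (cm W * Tw b k θ)) =
        ((Real.cosh (k / 2) ^ b.card * ∫ φ in (0 : ℝ)..Real.pi,
          w φ * Matrix.trace (W * rotT b (Real.tanh (k / 2)) φ) : ℝ) : ℂ) := by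
      rw [← intervalIntegral.integral_const_mul, ← intervalIntegral.integral_ofReal]
      congr 1
      ext θ
      rw [hT]
      push_cast
      ring
    rw [this, Complex.ofReal_re]
  refine ⟨ι, hι, fun i => (star (u i) ⬝ᵥ u i).re, N, r, p, fun i => re_star_dot_nonneg _,
    fun i => ⟨hN i, hp i⟩, ?_, ?_, ?_⟩
  · intro P Q
    have c1 : Cas b * cm (Om b) = cm (Om b) * Cas b := by
      rw [cm_Om, Matrix.mul_sub, Matrix.sub_mul, Matrix.mul_smul, Matrix.smul_mul, mul_one,
        one_mul]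
    have c2 : Sg b sz * cm (Om b) = cm (Om b) * Sg b sz := by
      rw [cm_Om, Matrix.mul_sub, Matrix.sub_mul, Cas_Sz, Matrix.mul_smul, Matrix.smul_mul, mul_one,
        one_mul]
    have c3 : Cas b * cm (Dn b) = cm (Dn b) * Cas b := by
      rw [cm_Dn, Matrix.mul_sub, Matrix.sub_mul, Cas_Sz, Matrix.mul_smul, Matrix.smul_mul, mul_one,
        one_mul]
    have c4 : Sg b sz * cm (Dn b) = cm (Dn b) * Sg b sz := by
      rw [cm_Dn, Matrix.mul_sub, Matrix.sub_mul, Matrix.mul_smul, Matrix.smul_mul, mul_one,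
        one_mul]
    have e1 : ∀ i, cm (Om b) *ᵥ u i =
        (((r i : ℝ) * ((b.card : ℝ) - r i + 1) : ℝ) : ℂ) • u i := by
      intro i
      rw [cm_Om, Matrix.sub_mulVec, Matrix.smul_mulVec, Matrix.one_mulVec, hC, ← sub_smul,
          ← Complex.ofReal_sub]
      congr 2
      rw [← hN i]
      push_cast
      ring
    have e2 : ∀ i, cm (Dn b) *ᵥ u i = (((r i : ℝ) + p i : ℝ) : ℂ) • u i := by
      intro i
      rw [cm_Dn, Matrix.sub_mulVec, Matrix.smul_mulVec, Matrix.one_mulVec, hS, ← sub_smul,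
          ← Complex.ofReal_sub]
      congr 2
      rw [← hN i]
      push_cast
      ring
    have h := hscal (cm (Polynomial.aeval (Om b) P * Polynomial.aeval (Dn b) Q))
      (fun i => P.eval ((r i : ℝ) * ((b.card : ℝ) - r i + 1)) * Q.eval ((r i : ℝ) + p i))
      (by rw [cm_mul, ← mul_assoc, comm_cm_aeval c1, mul_assoc, comm_cm_aeval c3, mul_assoc])
      (by rw [cm_mul, ← mul_assoc, comm_cm_aeval c2, mul_assoc, comm_cm_aeval c4, mul_assoc])
      (fun i => by
        rw [cm_mul, ← Matrix.mulVec_mulVec, aeval_mulVec (e2 i), Matrix.mulVec_smul,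
          aeval_mulVec (e1 i), smul_smul, ← Complex.ofReal_mul, mul_comm])
    rw [← h, ← cm_mul, cm_trace, Complex.ofReal_re]
  · intro k hk
    have h := hscal (opA b k) (fun i => aN k (N i))
      (comm_Av0 b k (by fun_prop) fun θ => Cas_comm_E b k θ)
      (comm_Av0 b k (by fun_prop) fun θ => Sz_comm_E b k θ)
      (fun i => (hK i k hk).1)
    rw [← h, opA, hAv k _ (by fun_prop)]
    rw [div_mul_eq_mul_div, mul_div_assoc, ← intervalIntegral.integral_div]
    congr 1
    congr 1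
    ext φ
    ring
  · intro k hk m
    have hw : Continuous fun θ : ℝ => 1 / 2 * Real.sin θ * (1 - Real.cos θ) ^ m := by fun_prop
    have h1 : (Matrix.trace (cm W * Av b k 0 fun θ =>
        1 / 2 * Real.sin θ * (1 - Real.cos θ) ^ m)).re =
        ∑ i, ∫ θ in (0 : ℝ)..Real.pi, 1 / 2 * Real.sin θ * (1 - Real.cos θ) ^ m *
          (star (u i) ⬝ᵥ (E b k 0 θ *ᵥ u i)).re := by
      rw [hlaw _ (comm_Av0 b k hw fun θ => Cas_comm_E b k θ)
        (comm_Av0 b k hw fun θ => Sz_comm_E b k θ), Complex.re_sum]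
      exact Finset.sum_congr rfl fun i _ => form_Av b k hw (u i)
    have h2 : ∑ i, (star (u i) ⬝ᵥ u i).re * (aN k (N i) * ((p i : ℝ) / N i) ^ m) ≤
        ∑ i, ∫ θ in (0 : ℝ)..Real.pi, 1 / 2 * Real.sin θ * (1 - Real.cos θ) ^ m *
          (star (u i) ⬝ᵥ (E b k 0 θ *ᵥ u i)).re :=
      Finset.sum_le_sum fun i _ => moment (hu i).2.choose_spec.choose_spec.2 hk (hp i)
        (hK i k hk).1 (hK i k hk).2 m
    rw [← h1, hAv k _ hw] at h2
    refine h2.trans (le_of_eq ?_)
    rw [div_mul_eq_mul_div, mul_div_assoc, ← intervalIntegral.integral_div]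
    congr 1
    congr 1
    ext φ
    ring


open scoped Matrix.Norms.Operator in
theorem hasSum_exp_matrix (A : Matrix (V → Fin 2) (V → Fin 2) ℝ) :
    HasSum (fun n : ℕ => ((n.factorial : ℝ)⁻¹) • A ^ n) (NormedSpace.exp A) :=
  NormedSpace.exp_series_hasSum_exp' (𝕂 := ℝ) A

theorem law_exp {ι : Type} [Fintype ι] {μ α β' : ι → ℝ} {W A B : Matrix (V → Fin 2) (V → Fin 2) ℝ}
    (h : ∀ P Q : Polynomial ℝ, ∑ i, μ i * (P.eval (α i) * Q.eval (β' i)) =
      Matrix.trace (W * (Polynomial.aeval A P * Polynomial.aeval B Q)))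
    (P Q : Polynomial ℝ) :
    ∑ i, μ i * (Real.exp (P.eval (α i)) * Q.eval (β' i)) =
      Matrix.trace (W * (NormedSpace.exp (Polynomial.aeval A P) * Polynomial.aeval B Q)) := by
  have h1 : HasSum (fun n : ℕ => ∑ i, μ i *
      ((Polynomial.C ((n.factorial : ℝ)⁻¹) * P ^ n).eval (α i) * Q.eval (β' i)))
      (∑ i, μ i * (Real.exp (P.eval (α i)) * Q.eval (β' i))) := by
    refine hasSum_sum fun i _ => HasSum.mul_left _ (HasSum.mul_right _ ?_)
    have := NormedSpace.exp_series_hasSum_exp' (𝕂 := ℝ) (P.eval (α i))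
    rw [← Real.exp_eq_exp_ℝ] at this
    refine this.congr_fun ?_
    intro n
    simp
  have h2 : HasSum (fun n : ℕ => Matrix.trace (W * (Polynomial.aeval A
      (Polynomial.C ((n.factorial : ℝ)⁻¹) * P ^ n) * Polynomial.aeval B Q)))
      (Matrix.trace (W * (NormedSpace.exp (Polynomial.aeval A P) * Polynomial.aeval B Q))) := by
    have h3 := hasSum_exp_matrix (Polynomial.aeval A P)
    have hc : Continuous fun X : Matrix (V → Fin 2) (V → Fin 2) ℝ =>
        Matrix.trace (W * (X * Polynomial.aeval B Q)) := by fun_prop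
    have h4 := h3.map (⟨⟨fun X : Matrix (V → Fin 2) (V → Fin 2) ℝ =>
        Matrix.trace (W * (X * Polynomial.aeval B Q)), by simp⟩, by
          intro X Y
          simp [Matrix.add_mul, Matrix.mul_add]⟩ :
            Matrix (V → Fin 2) (V → Fin 2) ℝ →+ ℝ) hc
    refine h4.congr_fun ?_
    intro n
    simp [Algebra.algebraMap_eq_smul_one]
  simp only [h] at h1
  exact h1.unique h2

theorem law_exp2 {ι : Type} [Fintype ι] {μ α β' : ι → ℝ} {W A B : Matrix (V → Fin 2) (V → Fin 2) ℝ}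
    (h : ∀ P Q : Polynomial ℝ, ∑ i, μ i * (P.eval (α i) * Q.eval (β' i)) =
      Matrix.trace (W * (Polynomial.aeval A P * Polynomial.aeval B Q)))
    (P Q : Polynomial ℝ) :
    ∑ i, μ i * (Real.exp (P.eval (α i)) * Real.exp (Q.eval (β' i))) =
      Matrix.trace (W * (NormedSpace.exp (Polynomial.aeval A P) *
        NormedSpace.exp (Polynomial.aeval B Q))) := by
  have h1 : HasSum (fun n : ℕ => ∑ i, μ i *
      (Real.exp (P.eval (α i)) * (Polynomial.C ((n.factorial : ℝ)⁻¹) * Q ^ n).eval (β' i)))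
      (∑ i, μ i * (Real.exp (P.eval (α i)) * Real.exp (Q.eval (β' i)))) := by
    refine hasSum_sum fun i _ => HasSum.mul_left _ (HasSum.mul_left _ ?_)
    have := NormedSpace.exp_series_hasSum_exp' (𝕂 := ℝ) (Q.eval (β' i))
    rw [← Real.exp_eq_exp_ℝ] at this
    refine this.congr_fun ?_
    intro n
    simp
  have h2 : HasSum (fun n : ℕ => Matrix.trace (W * (NormedSpace.exp (Polynomial.aeval A P) *
      Polynomial.aeval B (Polynomial.C ((n.factorial : ℝ)⁻¹) * Q ^ n))))
      (Matrix.trace (W * (NormedSpace.exp (Polynomial.aeval A P) *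
        NormedSpace.exp (Polynomial.aeval B Q)))) := by
    have h3 := hasSum_exp_matrix (Polynomial.aeval B Q)
    have hc : Continuous fun X : Matrix (V → Fin 2) (V → Fin 2) ℝ =>
        Matrix.trace (W * (NormedSpace.exp (Polynomial.aeval A P) * X)) := by fun_prop
    have h4 := h3.map (⟨⟨fun X : Matrix (V → Fin 2) (V → Fin 2) ℝ =>
        Matrix.trace (W * (NormedSpace.exp (Polynomial.aeval A P) * X)), by simp⟩, by
          intro X Y
          simp [Matrix.mul_add]⟩ :
            Matrix (V → Fin 2) (V → Fin 2) ℝ →+ ℝ) hc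
    refine h4.congr_fun ?_
    intro n
    simp [Algebra.algebraMap_eq_smul_one]
  simp only [law_exp h] at h1
  exact h1.unique h2

/-- Functions of `r` only: for every `g` there is a polynomial `G` of the exchange operators of
the block with `E[P(g(r))] = trace (W P(G))` and `E[exp (t g(r))] = trace (W exp (t G))`. -/
theorem law_fun {ι : Type} [Fintype ι] {μ : ι → ℝ} {N r p : ι → ℕ} {b : Finset V}
    {W : Matrix (V → Fin 2) (V → Fin 2) ℝ} (hN : ∀ i, N i + 2 * r i = b.card)
    (h : ∀ P Q : Polynomial ℝ, ∑ i, μ i * (P.eval ((r i : ℝ) * ((b.card : ℝ) - r i + 1)) *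
      Q.eval ((r i : ℝ) + p i)) =
        Matrix.trace (W * (Polynomial.aeval (Om b) P * Polynomial.aeval (Dn b) Q)))
    {g : ℕ → ℝ} {G : Polynomial ℝ}
    (hG : ∀ r : ℕ, 2 * r ≤ b.card → G.eval ((r : ℝ) * ((b.card : ℝ) - r + 1)) = g r) :
    (∀ P : Polynomial ℝ, ∑ i, μ i * P.eval (g (r i)) =
      Matrix.trace (W * Polynomial.aeval (Polynomial.aeval (Om b) G) P)) ∧
    (∀ t : ℝ, ∑ i, μ i * Real.exp (t * g (r i)) =
      Matrix.trace (W * NormedSpace.exp (t • Polynomial.aeval (Om b) G))) := by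
  have hr : ∀ i, G.eval ((r i : ℝ) * ((b.card : ℝ) - r i + 1)) = g (r i) := fun i =>
    hG _ (by have := hN i; omega)
  constructor
  · intro P
    have h1 := h (P.comp G) 1
    simp only [Polynomial.eval_comp, hr, Polynomial.eval_one, mul_one, map_one,
      Polynomial.aeval_comp] at h1
    exact h1
  · intro t
    have h1 := law_exp h (Polynomial.C t * G) 1
    simp only [Polynomial.eval_mul, Polynomial.eval_C, hr, Polynomial.eval_one, mul_one, map_one,
      map_mul, Polynomial.aeval_C, Algebra.algebraMap_eq_smul_one, Matrix.smul_mul, one_mul] at h1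
    exact h1

end Vale.Agent.P361.LRO.TwJ
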