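import Vale.Agent.P361.LRO.Tw.J.LT0Gen
import Vale.Agent.P361.LRO.GenS.PiFacts

/-!
P361, all spins: `W = P exp(-β H)` with the symmetriser `P` satisfies the hypotheses of the joint
law.
-/

namespace Vale.Agent.P361.LRO.TwJ

set_option linter.all false

open Matrix Finset GenS
open scoped ComplexOrder

variable {V : Type} [Fintype V] [DecidableEq V] {m : ℕ} [NeZero m]

theorem symProd_psd : (symProd V m).PosSemidef := by
  have h : symProd V m = (symProd V m)ᴴ * symProd V m := by
    rw [Matrix.conjTranspose_eq_transpose_of_trivial, symProd_transpose, symProd_sq]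
  rw [h]
  exact Matrix.posSemidef_conjTranspose_mul_self _

theorem sum_cnt (σ : V × Fin m → Fin 2) : ∑ z, ((σ z : ℕ) : ℤ) = ∑ x, ((cnt σ x : ℕ) : ℤ) := by
  rw [Fintype.sum_prod_type]
  refine Finset.sum_congr rfl fun x _ => ?_
  rw [cnt, Finset.card_filter, Nat.cast_sum]
  refine Finset.sum_congr rfl fun a _ => ?_
  generalize σ (x, a) = i
  fin_cases i <;> simp

theorem symProd_hsym (σ τ : V × Fin m → Fin 2) (h : symProd V m σ τ ≠ 0) :
    ∑ z, ((σ z : ℕ) : ℤ) = ∑ z, ((τ z : ℕ) : ℤ) := by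
  rw [symProd_apply] at h
  have h1 : cnt σ = cnt τ := by
    by_contra h2
    rw [if_neg h2] at h
    exact h rfl
  rw [sum_cnt, sum_cnt, h1]

theorem swap_comm_Sg' {b : Finset V} {x y : V} (hxy : x ∈ b ↔ y ∈ b) (A : M2) :
    Sg b A * cm (swapM x y) = cm (swapM x y) * Sg b A := by
  have hs : ∀ z, Equiv.swap x y z ∈ b ↔ z ∈ b := by
    intro z
    by_cases hzx : z = x
    · subst hzx; simp [hxy]
    · by_cases hzy : z = y
      · subst hzy; simp [hxy]
      · rw [Equiv.swap_apply_of_ne_of_ne hzx hzy]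
  have hinv : ∀ σ τ : V → Fin 2, σ = τ ∘ Equiv.swap x y ↔ τ = σ ∘ Equiv.swap x y := by
    intro σ τ
    constructor
    · intro h; rw [h]; ext1 z; simp
    · intro h; rw [h]; ext1 z; simp
  have h1 : ∀ (X : Opr V) σ τ, (cm (swapM x y) * X) σ τ = X (σ ∘ Equiv.swap x y) τ := by
    intro X σ τ
    rw [Matrix.mul_apply, Finset.sum_eq_single (σ ∘ Equiv.swap x y)]
    · rw [cm, Matrix.of_apply, swapM, Matrix.of_apply, if_pos ((hinv _ _).2 rfl)]; simp
    · intro ρ _ hρ
      rw [cm, Matrix.of_apply, swapM, Matrix.of_apply, if_neg (fun h => hρ ((hinv _ _).1 h))]; simp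
    · intro h; exact absurd (Finset.mem_univ _) h
  have h2 : ∀ (X : Opr V) σ τ, (X * cm (swapM x y)) σ τ = X σ (τ ∘ Equiv.swap x y) := by
    intro X σ τ
    rw [Matrix.mul_apply, Finset.sum_eq_single (τ ∘ Equiv.swap x y)]
    · rw [cm, Matrix.of_apply, swapM, Matrix.of_apply, if_pos rfl]; simp
    · intro ρ _ hρ
      rw [cm, Matrix.of_apply, swapM, Matrix.of_apply, if_neg hρ]; simp
    · intro h; exact absurd (Finset.mem_univ _) h
  ext σ τ
  rw [h1, h2, Sg, Matrix.sum_apply, Matrix.sum_apply]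
  refine Finset.sum_bij' (fun z _ => Equiv.swap x y z) (fun z _ => Equiv.swap x y z)
    (fun z hz => (hs z).2 hz) (fun z hz => (hs z).2 hz) (fun z _ => by simp) (fun z _ => by simp)
    fun z hz => ?_
  rw [st_apply, st_apply]
  simp only [Function.comp_apply, Equiv.swap_apply_self]
  congr 1
  have : (∀ w, w ≠ z → σ w = τ (Equiv.swap x y w)) ↔
      (∀ w, w ≠ Equiv.swap x y z → σ (Equiv.swap x y w) = τ w) := by
    constructor
    · intro h w hw
      have := h (Equiv.swap x y w) (fun h' => hw (by rw [← h']; simp))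
      rwa [Equiv.swap_apply_self] at this
    · intro h w hw
      have := h (Equiv.swap x y w) (fun h' => hw ((Equiv.swap x y).injective h'))
      rwa [Equiv.swap_apply_self] at this
  simp only [this]

/-- The symmetriser commutes with the spin operators of a block of whole columns. -/
theorem symProd_comm_Sg {b : Finset (V × Fin m)} (hb : ∀ (x : V) (i j : Fin m),
      (x, i) ∈ b ↔ (x, j) ∈ b) (A : M2) :
    Sg b A * cm (symProd V m) = cm (symProd V m) * Sg b A := by
  have key : ∀ l : List ((V × Fin m) × (V × Fin m) × ℝ), (∀ e ∈ l, e.1.1 = e.2.1.1) →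
      Sg b A * cm (l.map gM).prod = cm (l.map gM).prod * Sg b A := by
    intro l hl
    induction l with
    | nil => simp [cm_one]
    | cons e l ih =>
      have he := hl e (by simp)
      obtain ⟨⟨x, a⟩, ⟨y, c⟩, p⟩ := e
      dsimp only at he
      subst he
      rw [List.map_cons, List.prod_cons, cm_mul, ← mul_assoc]
      have h1 : Sg b A * cm (gM ((x, a), (x, c), p)) = cm (gM ((x, a), (x, c), p)) * Sg b A := by
        rw [gM, cm_add, cm_smul, cm_smul, cm_one, mul_add, add_mul, Matrix.mul_smul,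
          Matrix.smul_mul, Matrix.mul_smul, Matrix.smul_mul, mul_one, one_mul,
          swap_comm_Sg' (hb x a c)]
      rw [h1, mul_assoc, ih fun e he => hl e (by simp [he]), mul_assoc]
  exact key _ symGates_site

theorem exp_comm_symProd (L : List (V × V)) (β : ℝ) (h : V → ℝ) :
    Commute (symProd V m) (NormedSpace.exp (-β • ham (interL L m) (lift m h))) :=
  ((symProd_comm_ham L h).smul_right _).exp_right

/-- The Gibbs operator of the spin `m / 2` model on the copies. -/
noncomputable def WS (L : List (V × V)) (m : ℕ) [NeZero m] (β : ℝ) (h : V → ℝ) :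
    Matrix (V × Fin m → Fin 2) (V × Fin m → Fin 2) ℝ :=
  symProd V m * NormedSpace.exp (-β • ham (interL L m) (lift m h))

theorem WS_psd (L : List (V × V)) (β : ℝ) (h : V → ℝ) : (WS L m β h).PosSemidef :=
  psd_mul symProd_psd symProd_sq (Tw.expH_psd _ β _) (exp_comm_symProd L β h)

theorem WS_hsym (L : List (V × V)) (β : ℝ) (h : V → ℝ) (σ τ : V × Fin m → Fin 2)
    (hd : WS L m β h σ τ ≠ 0) : ∑ x, ((σ x : ℕ) : ℤ) = ∑ x, ((τ x : ℕ) : ℤ) :=
  hsym_mul symProd_hsym (hsym_exp _ β _) σ τ hd

/-- Zero field, edges inside the block of whole columns: `W` commutes with the block spin. -/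
theorem WS_comm_Sg {L : List (V × V)} {B : Finset V} (hL : ∀ e ∈ L, e.1 ∈ B ∧ e.2 ∈ B) (β : ℝ)
    (A : M2) :
    Sg (liftB m B) A * cm (WS L m β fun _ => 0) = cm (WS L m β fun _ => 0) * Sg (liftB m B) A := by
  have hl : ∀ e ∈ interL L m, e.1 ∈ liftB m B ∧ e.2 ∈ liftB m B := by
    intro e he
    have := hL _ (mem_interL.1 he)
    simp only [liftB, Finset.mem_product, Finset.mem_univ, and_true]
    exact this
  refine comm_Sg_mul (symProd_comm_Sg (fun x i j => by simp [liftB]) A) ?_
  apply comm_cm_exp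
  have h1 := ham_comm_Sg hl A
  have h2 : lift m (fun _ : V => (0 : ℝ)) = fun _ => 0 := rfl
  rw [cm_smul, Matrix.mul_smul, Matrix.smul_mul, h2, h1]

end Vale.Agent.P361.LRO.TwJ
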