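import Vale.Agent.P361.LRO.Tw.J.Ladder

/-!
P361, block twist, part 5: the scalar averages `a(N)`, `b₀(N)`, `b₁(N)` and the scalar inequality.
-/

namespace Vale.Agent.P361.LRO.TwJ

set_option linter.all false

open MeasureTheory intervalIntegral Real

theorem dd_le {k : ℝ} (hk : 0 ≤ k) (θ : ℝ) : dd k θ ≤ Real.exp (k / 2) := by
  have h1 : 0 ≤ Real.sinh (k / 2) := Real.sinh_nonneg_iff.2 (by linarith)
  have h2 := Real.cosh_add_sinh (k / 2)
  have h3 := Real.cos_le_one θ
  rw [dd]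
  nlinarith

theorem cont_a (k : ℝ) (N : ℕ) : Continuous fun θ => 1 / 2 * Real.sin θ ^ 1 * dd k θ ^ N := by
  have := continuous_dd k
  fun_prop

theorem cont_b0 (k : ℝ) (N : ℕ) :
    Continuous fun θ => 1 / 2 * Real.cos θ * Real.sin θ ^ 1 * dd k θ ^ N := by
  have := continuous_dd k
  fun_prop

theorem cont_b1 {k : ℝ} (hk : 0 ≤ k) (N : ℕ) :
    Continuous fun θ => 1 / 2 * Real.sin θ ^ 2 *
      (dd k θ ^ N * (Real.sinh (k / 2) * Real.sin θ / dd k θ)) := by
  have h1 := continuous_dd k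
  have h2 : ∀ θ, dd k θ ≠ 0 := fun θ => (dd_pos hk θ).ne'
  exact (by fun_prop : Continuous fun θ => 1 / 2 * Real.sin θ ^ 2).mul
    ((h1.pow N).mul ((continuous_const.mul Real.continuous_sin).div h1 h2))

theorem aN_pos {k : ℝ} (hk : 0 ≤ k) (N : ℕ) : 0 < aN k N := by
  refine intervalIntegral.intervalIntegral_pos_of_pos_on
    ((cont_a k N).intervalIntegrable _ _) (fun θ hθ => ?_) Real.pi_pos
  have h1 := Real.sin_pos_of_pos_of_lt_pi hθ.1 hθ.2
  have h2 := dd_pos hk θ
  positivity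

theorem aN_le {k : ℝ} (hk : 0 ≤ k) {N n : ℕ} (h : N ≤ n) :
    aN k n ≤ Real.exp (k / 2 * (n - N : ℕ)) * aN k N := by
  rw [aN, aN, ← intervalIntegral.integral_const_mul]
  refine intervalIntegral.integral_mono_on Real.pi_pos.le
    ((cont_a k n).intervalIntegrable _ _)
    (((cont_a k N).const_mul _).intervalIntegrable _ _) fun θ hθ => ?_
  have h1 := Real.sin_nonneg_of_nonneg_of_le_pi hθ.1 hθ.2
  have h2 := dd_pos hk θ
  have h3 : dd k θ ^ n = dd k θ ^ (n - N) * dd k θ ^ N := by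
    rw [← pow_add, Nat.sub_add_cancel h]
  have h4 : dd k θ ^ (n - N) ≤ Real.exp (k / 2 * (n - N : ℕ)) := by
    rw [mul_comm, Real.exp_nat_mul]
    exact pow_le_pow_left₀ h2.le (dd_le hk θ) _
  rw [h3]
  have h5 : 0 ≤ 1 / 2 * Real.sin θ ^ 1 * dd k θ ^ N := by positivity
  calc 1 / 2 * Real.sin θ ^ 1 * (dd k θ ^ (n - N) * dd k θ ^ N)
      = dd k θ ^ (n - N) * (1 / 2 * Real.sin θ ^ 1 * dd k θ ^ N) := by ring
    _ ≤ _ := mul_le_mul_of_nonneg_right h4 h5

theorem b1N_nonneg {k : ℝ} (hk : 0 ≤ k) (N : ℕ) : 0 ≤ b1N k N := by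
  refine intervalIntegral.integral_nonneg Real.pi_pos.le fun θ hθ => ?_
  have h1 := Real.sin_nonneg_of_nonneg_of_le_pi hθ.1 hθ.2
  have h2 := dd_pos hk θ
  have h3 : 0 ≤ Real.sinh (k / 2) := Real.sinh_nonneg_iff.2 (by linarith)
  positivity

theorem b0N_le {k : ℝ} (hk : 0 ≤ k) (N : ℕ) : b0N k N ≤ aN k N := by
  refine intervalIntegral.integral_mono_on Real.pi_pos.le
    ((cont_b0 k N).intervalIntegrable _ _) ((cont_a k N).intervalIntegrable _ _) fun θ hθ => ?_
  have h1 := Real.sin_nonneg_of_nonneg_of_le_pi hθ.1 hθ.2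
  have h2 := dd_pos hk θ
  have h3 := Real.cos_le_one θ
  have h4 : 0 ≤ 1 / 2 * Real.sin θ ^ 1 * dd k θ ^ N := by positivity
  nlinarith

theorem hasDerivAt_dd (k θ : ℝ) : HasDerivAt (dd k) (Real.sinh (k / 2) * -Real.sin θ) θ :=
  ((Real.hasDerivAt_cos θ).const_mul _).const_add _

theorem N_b1 {k : ℝ} (hk : 0 ≤ k) (N : ℕ) : (N : ℝ) * b1N k N = 2 * b0N k N := by
  have h1 : ∀ θ ∈ Set.uIcc (0 : ℝ) Real.pi, HasDerivAt (fun θ => dd k θ ^ N * Real.sin θ ^ 2)
      (-2 * N * (1 / 2 * Real.sin θ ^ 2 *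
        (dd k θ ^ N * (Real.sinh (k / 2) * Real.sin θ / dd k θ))) +
        4 * (1 / 2 * Real.cos θ * Real.sin θ ^ 1 * dd k θ ^ N)) θ := by
    intro θ _
    have h2 := ((hasDerivAt_dd k θ).pow N).mul ((Real.hasDerivAt_sin θ).pow 2)
    refine HasDerivAt.congr_deriv (f := fun θ => dd k θ ^ N * Real.sin θ ^ 2) h2 ?_
    have h3 := (dd_pos hk θ).ne'
    rcases N with _ | M
    · simp; ring
    · have : dd k θ ^ (M + 1) / dd k θ = dd k θ ^ M := by
        rw [pow_succ, mul_div_cancel_right₀ _ h3]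
      simp only [Nat.add_sub_cancel, Pi.pow_apply]
      have h5 : dd k θ ^ (M + 1) * (Real.sinh (k / 2) * Real.sin θ / dd k θ) =
          dd k θ ^ M * (Real.sinh (k / 2) * Real.sin θ) := by
        rw [← this]; ring
      rw [h5]
      push_cast
      ring
  have h2 := intervalIntegral.integral_eq_sub_of_hasDerivAt h1
    ((((cont_b1 hk N).const_mul _).add ((cont_b0 k N).const_mul _)).intervalIntegrable _ _)
  rw [intervalIntegral.integral_add (((cont_b1 hk N).const_mul _).intervalIntegrable _ _)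
    (((cont_b0 k N).const_mul _).intervalIntegrable _ _), intervalIntegral.integral_const_mul,
    intervalIntegral.integral_const_mul] at h2
  simp only [Real.sin_pi, Real.sin_zero] at h2
  change -2 * (N : ℝ) * b1N k N + 4 * b0N k N = _ at h2
  norm_num at h2
  linarith

theorem aN_mono_succ {k : ℝ} (hk : 0 ≤ k) (N : ℕ) : aN k N ≤ aN k (N + 1) := by
  have h0 : (∫ θ in (0 : ℝ)..Real.pi, 1 / 2 * Real.sin θ * (dd k θ - 1)) =
      Real.cosh (k / 2) - 1 := by
    have h1 : ∀ θ ∈ Set.uIcc (0 : ℝ) Real.pi,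
        HasDerivAt (fun θ => -(1 / 2) * (Real.cosh (k / 2) - 1) * Real.cos θ +
          1 / 4 * Real.sinh (k / 2) * Real.sin θ ^ 2)
          (1 / 2 * Real.sin θ * (dd k θ - 1)) θ := by
      intro θ _
      have h2 := ((Real.hasDerivAt_cos θ).const_mul (-(1 / 2) * (Real.cosh (k / 2) - 1))).add
        (((Real.hasDerivAt_sin θ).pow 2).const_mul (1 / 4 * Real.sinh (k / 2)))
      refine HasDerivAt.congr_deriv (f := fun θ => -(1 / 2) * (Real.cosh (k / 2) - 1) * Real.cos θ +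
          1 / 4 * Real.sinh (k / 2) * Real.sin θ ^ 2) h2 ?_
      rw [dd]
      norm_num
      ring
    have hc := continuous_dd k
    rw [intervalIntegral.integral_eq_sub_of_hasDerivAt h1
      ((by fun_prop : Continuous fun θ => 1 / 2 * Real.sin θ * (dd k θ - 1)).intervalIntegrable
        _ _)]
    simp
    ring
  have h1 : (∫ θ in (0 : ℝ)..Real.pi, 1 / 2 * Real.sin θ * (dd k θ - 1)) ≤
      aN k (N + 1) - aN k N := by
    rw [aN, aN, ← intervalIntegral.integral_sub ((cont_a k (N + 1)).intervalIntegrable _ _)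
      ((cont_a k N).intervalIntegrable _ _)]
    have hc := continuous_dd k
    refine intervalIntegral.integral_mono_on Real.pi_pos.le
      ((by fun_prop : Continuous fun θ => 1 / 2 * Real.sin θ * (dd k θ - 1)).intervalIntegrable
        _ _)
      (((cont_a k (N + 1)).sub (cont_a k N)).intervalIntegrable _ _) fun θ hθ => ?_
    have h2 := Real.sin_nonneg_of_nonneg_of_le_pi hθ.1 hθ.2
    have h3 := dd_pos hk θ
    have h4 : dd k θ - 1 ≤ dd k θ ^ N * (dd k θ - 1) := by
      rcases le_total 1 (dd k θ) with h | h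
      · have := one_le_pow₀ h (n := N)
        nlinarith
      · have := pow_le_one₀ h3.le h (n := N)
        nlinarith
    have h5 := mul_le_mul_of_nonneg_left h4 (by positivity : 0 ≤ 1 / 2 * Real.sin θ)
    calc 1 / 2 * Real.sin θ * (dd k θ - 1) ≤ _ := h5
      _ = _ := by ring
  have h2 : 0 ≤ Real.cosh (k / 2) - 1 := by linarith [Real.one_le_cosh (k / 2)]
  linarith

theorem aN_mono {k : ℝ} (hk : 0 ≤ k) {N n : ℕ} (h : N ≤ n) : aN k N ≤ aN k n := by
  induction n, h using Nat.le_induction with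
  | base => exact le_rfl
  | succ m _ ih => exact ih.trans (aN_mono_succ hk m)

/-- The scalar inequality. -/
theorem scal {K : ℝ} (hK : 0 < K) {n N r p : ℕ} (hn : 0 < n) (hN : N + 2 * r = n) (hp : p ≤ N) :
    0 ≤ (1 + K) * (2 / (n : ℝ) ^ 2) *
        ((n : ℝ) / 2 * ((n : ℝ) / 2 + 1) - (N : ℝ) / 2 * ((N : ℝ) / 2 + 1)) +
      Real.exp 1 / aN (K / n) n * (aN (K / n) N - (b0N (K / n) N - p * b1N (K / n) N)) -
      1 / (n : ℝ) * ((n : ℝ) / 2 - ((N : ℝ) / 2 - p)) := by
  have hn' : (0 : ℝ) < n := by exact_mod_cast hn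
  set k := K / (n : ℝ) with hk
  have hk0 : 0 ≤ k := by positivity
  have hNn : N ≤ n := by omega
  have hNr : (n : ℝ) = N + 2 * r := by rw [← hN]; push_cast; ring
  have ha := aN_pos hk0 N
  have han := aN_pos hk0 n
  have h1 := aN_le hk0 hNn
  have h2 := b1N_nonneg hk0 N
  have h3 := b0N_le hk0 N
  have h4 := N_b1 hk0 N
  set a := aN k N
  set A := aN k n
  set β0 := b0N k N
  set β1 := b1N k N
  have hr0 : (0 : ℝ) ≤ r := Nat.cast_nonneg r
  have hN0 : (0 : ℝ) ≤ N := Nat.cast_nonneg N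
  have hp0 : (0 : ℝ) ≤ p := Nat.cast_nonneg p
  have hpN : (p : ℝ) ≤ N := by exact_mod_cast hp
  -- `δ = r / n`
  have hkr : k / 2 * ((n - N : ℕ) : ℝ) = K * (r / n) := by
    have : ((n - N : ℕ) : ℝ) = 2 * r := by
      have : n - N = 2 * r := by omega
      rw [this]; push_cast; ring
    rw [this, hk]; ring
  rw [hkr] at h1
  set δ := (r : ℝ) / n with hδ
  have hδ0 : 0 ≤ δ := by positivity
  -- the Casimir term
  have hD : δ ≤ 2 / (n : ℝ) ^ 2 *
      ((n : ℝ) / 2 * ((n : ℝ) / 2 + 1) - (N : ℝ) / 2 * ((N : ℝ) / 2 + 1)) := by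
    have e1 : (n : ℝ) / 2 * ((n : ℝ) / 2 + 1) - (N : ℝ) / 2 * ((N : ℝ) / 2 + 1) =
        r * ((n : ℝ) - r + 1) := by
      have : (N : ℝ) = n - 2 * r := by linarith
      rw [this]; ring
    rw [e1, hδ, div_mul_eq_mul_div, div_le_div_iff₀ hn' (by positivity)]
    have h5 : (n : ℝ) ≤ 2 * ((n : ℝ) - r + 1) := by nlinarith
    have h6 : (r : ℝ) * n * n ≤ r * (2 * ((n : ℝ) - r + 1)) * n := by
      refine mul_le_mul_of_nonneg_right (mul_le_mul_of_nonneg_left h5 hr0) hn'.le
    nlinarith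
  -- `x = 1 - M/J` part
  have hx : a * (p / n) ≤ a - (β0 - p * β1) ∨ True := Or.inr trivial
  -- `a - M β₁ ≥ (p/N) a`, written as `N (a - M β₁) ≥ p a`
  have hM : (p : ℝ) * a ≤ N * (a - (β0 - p * β1)) := by
    have e2 : N * (a - (β0 - p * β1)) = N * a - ((N : ℝ) - 2 * p) * β0 := by
      linear_combination (p : ℝ) * h4
    rw [e2]
    rcases le_total (2 * (p : ℝ)) N with h | h
    · have : ((N : ℝ) - 2 * p) * β0 ≤ ((N : ℝ) - 2 * p) * a :=
        mul_le_mul_of_nonneg_left h3 (by linarith)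
      nlinarith
    · have hb0 : 0 ≤ β0 := by nlinarith
      nlinarith
  -- magnetization deficit
  have hdef : 1 / (n : ℝ) * ((n : ℝ) / 2 - ((N : ℝ) / 2 - p)) = δ + p / n := by
    rw [hδ, hNr]; ring
  rw [hdef]
  have hK1 : (1 + K) * δ ≤ (1 + K) * (2 / (n : ℝ) ^ 2) *
      ((n : ℝ) / 2 * ((n : ℝ) / 2 + 1) - (N : ℝ) / 2 * ((N : ℝ) / 2 + 1)) := by
    rw [mul_assoc]
    exact mul_le_mul_of_nonneg_left hD (by linarith)
  have hgoal : (p : ℝ) / n ≤ K * δ + Real.exp 1 / A * (a - (β0 - p * β1)) := by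
    rcases Nat.eq_zero_or_pos N with hN1 | hN1
    · have : (p : ℝ) = 0 := by
        have : p = 0 := by omega
        rw [this]; simp
      have h5 : β0 ≤ a := h3
      have h6 : 0 ≤ Real.exp 1 / A * (a - (β0 - p * β1)) := by
        rw [this]
        refine mul_nonneg (by positivity) (by linarith)
      have : (p : ℝ) / n = 0 := by rw [this]; simp
      rw [this]
      positivity
    have hN1' : (0 : ℝ) < N := by exact_mod_cast hN1
    have hM' : p / N * a ≤ a - (β0 - p * β1) := by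
      rw [div_mul_eq_mul_div, div_le_iff₀ hN1']
      linarith
    have hNn' : (N : ℝ) ≤ n := by exact_mod_cast hNn
    have hpn : (p : ℝ) / n ≤ p / N := by
      exact div_le_div_of_nonneg_left hp0 hN1' hNn'
    have hpn1 : (p : ℝ) / n ≤ 1 := by
      rw [div_le_one hn']; linarith
    rcases le_total (K * δ) 1 with h | h
    · have h7 : A ≤ Real.exp 1 * a := by
        refine h1.trans (mul_le_mul_of_nonneg_right (Real.exp_le_exp.2 h) ha.le)
      have h8 : 1 ≤ Real.exp 1 / A * a := by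
        rw [div_mul_eq_mul_div, le_div_iff₀ han]
        linarith
      have h9 : (p : ℝ) / N ≤ Real.exp 1 / A * (a - (β0 - p * β1)) := by
        calc (p : ℝ) / N = p / N * 1 := by ring
          _ ≤ p / N * (Real.exp 1 / A * a) := mul_le_mul_of_nonneg_left h8 (by positivity)
          _ = Real.exp 1 / A * (p / N * a) := by ring
          _ ≤ _ := mul_le_mul_of_nonneg_left hM' (by positivity)
      have : 0 ≤ K * δ := by positivity
      linarith
    · have h6 : 0 ≤ Real.exp 1 / A * (a - (β0 - p * β1)) := by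
        refine mul_nonneg (by positivity) (le_trans (by positivity) hM')
      linarith
  have e3 : (1 + K) * δ = δ + K * δ := by ring
  linarith

end Vale.Agent.P361.LRO.TwJ
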