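import Vale.Agent.P361.LRO.Tw.J.Joint
import Vale.Agent.P361.LRO.Tw.J.Scal

/-!
P361, block twist, part 6: quadratic forms from joint eigenvectors; the operator inequality.
-/

namespace Vale.Agent.P361.LRO.TwJ

set_option linter.all false

open Matrix Finset
open scoped ComplexOrder

variable {V : Type} [Fintype V] [DecidableEq V]

/-- A quadratic form which is nonnegative on joint eigenvectors (acting there by scalars) is
nonnegative. -/
theorem form_nonneg (b : Finset V) (X : Opr V)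
    (hX : ∀ (w : (V → Fin 2) → ℂ), w ≠ 0 → ∀ lam mu : ℂ, Cas b *ᵥ w = lam • w →
      Sg b sz *ᵥ w = mu • w → ∃ y : ℝ, 0 ≤ y ∧ X *ᵥ w = (y : ℂ) • w)
    (w : (V → Fin 2) → ℂ) : 0 ≤ (star w ⬝ᵥ (X *ᵥ w)).re := by
  classical
  let A : EuclideanSpace ℂ (V → Fin 2) →ₗ[ℂ] EuclideanSpace ℂ (V → Fin 2) :=
    Matrix.toEuclideanLin (Cas b)
  let B : EuclideanSpace ℂ (V → Fin 2) →ₗ[ℂ] EuclideanSpace ℂ (V → Fin 2) :=
    Matrix.toEuclideanLin (Sg b sz)
  have hA : A.IsSymmetric := Matrix.isSymmetric_toEuclideanLin_iff.2 (Cas_herm b)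
  have hB : B.IsSymmetric := Matrix.isSymmetric_toEuclideanLin_iff.2 (Sz_herm b)
  have hAB : Commute A B := by
    apply LinearMap.ext
    intro u
    change Matrix.toEuclideanLin (Cas b) (Matrix.toEuclideanLin (Sg b sz) u) =
      Matrix.toEuclideanLin (Sg b sz) (Matrix.toEuclideanLin (Cas b) u)
    rw [Matrix.toLpLin_apply, Matrix.toLpLin_apply, Matrix.toLpLin_apply, Matrix.toLpLin_apply]
    simp only [Matrix.mulVec_mulVec]
    rw [Cas_Sz]
  have hint := LinearMap.IsSymmetric.directSum_isInternal_of_commute hA hB hAB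
  have horth := LinearMap.IsSymmetric.orthogonalFamily_eigenspace_inf_eigenspace hA hB
  have htop := hint.submodule_iSup_eq_top
  have hmem : (WithLp.toLp 2 w : EuclideanSpace ℂ (V → Fin 2)) ∈
      ⨆ i : ℂ × ℂ, (Module.End.eigenspace A i.2 ⊓ Module.End.eigenspace B i.1) := by
    rw [htop]; trivial
  obtain ⟨f, hf, hfw⟩ := (Submodule.mem_iSup_iff_exists_finsupp _ _).1 hmem
  have hw : w = ∑ i ∈ f.support, (f i).ofLp := by
    have := congrArg WithLp.ofLp hfw
    rw [Finsupp.sum, WithLp.ofLp_sum] at this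
    exact this.symm
  have hact : ∀ i, ∃ y : ℝ, 0 ≤ y ∧ X *ᵥ (f i).ofLp = (y : ℂ) • (f i).ofLp := by
    intro i
    by_cases h0 : (f i).ofLp = 0
    · exact ⟨0, le_rfl, by rw [h0]; simp⟩
    · have h1 := Module.End.mem_eigenspace_iff.1 (hf i).1
      have h2 := Module.End.mem_eigenspace_iff.1 (hf i).2
      have h3 := congrArg WithLp.ofLp h1
      have h4 := congrArg WithLp.ofLp h2
      exact hX _ h0 i.2 i.1 h3 h4
  choose y hy hXy using hact
  have horth' : ∀ i j, i ≠ j → star (f i).ofLp ⬝ᵥ (f j).ofLp = 0 := by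
    intro i j hij
    have := horth hij ⟨f i, hf i⟩ ⟨f j, hf j⟩
    simp only [Submodule.coe_subtypeₗᵢ, Submodule.coe_subtype] at this
    rw [EuclideanSpace.inner_eq_star_dotProduct, dotProduct_comm] at this
    exact this
  have hXw : X *ᵥ w = ∑ j ∈ f.support, ((y j : ℂ)) • (f j).ofLp := by
    conv_lhs => rw [hw]
    rw [Matrix.mulVec_sum]
    exact Finset.sum_congr rfl fun j _ => hXy j
  have hfin : star w ⬝ᵥ (X *ᵥ w) =
      ∑ j ∈ f.support, (y j : ℂ) * (star (f j).ofLp ⬝ᵥ (f j).ofLp) := by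
    rw [hXw, dotProduct_sum]
    refine Finset.sum_congr rfl fun j hj => ?_
    rw [dotProduct_smul, smul_eq_mul]
    congr 1
    conv_lhs => rw [hw]
    rw [star_sum, sum_dotProduct, Finset.sum_eq_single j]
    · intro i _ hij
      exact horth' i j hij
    · intro hj'; exact absurd hj hj'
  rw [hfin, Complex.re_sum]
  refine Finset.sum_nonneg fun j _ => ?_
  rw [Complex.re_ofReal_mul]
  exact mul_nonneg (hy j) (re_star_dot_nonneg _)

/-- The operator of the block twist inequality. -/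
noncomputable def Yop (b : Finset V) (K : ℝ) : Opr V :=
  (((1 + K) * (2 / (b.card : ℝ) ^ 2) : ℝ) : ℂ) •
      ((((b.card : ℝ) / 2 * ((b.card : ℝ) / 2 + 1) : ℝ) : ℂ) • (1 : Opr V) - Cas b) +
    ((Real.exp 1 / aN (K / b.card) b.card : ℝ) : ℂ) • (opA b (K / b.card) - opB b (K / b.card)) -
    ((1 / (b.card : ℝ) : ℝ) : ℂ) • ((((b.card : ℝ) / 2 : ℝ) : ℂ) • (1 : Opr V) - Sg b sz)

theorem Yop_form {b : Finset V} (hb : b.Nonempty) {K : ℝ} (hK : 0 < K)
    (w : (V → Fin 2) → ℂ) : 0 ≤ (star w ⬝ᵥ (Yop b K *ᵥ w)).re := by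
  refine form_nonneg b _ (fun w hw lam mu h1 h2 => ?_) w
  have hn : 0 < b.card := Finset.card_pos.2 hb
  have hk0 : 0 ≤ K / (b.card : ℝ) := by positivity
  obtain ⟨N, r, p, hN, hp, hC, hS, hA, hB⟩ := joint hk0 hw h1 h2
  refine ⟨_, scal hK hn hN hp, ?_⟩
  rw [Yop, Matrix.sub_mulVec, Matrix.add_mulVec, Matrix.smul_mulVec, Matrix.smul_mulVec,
    Matrix.smul_mulVec, Matrix.sub_mulVec, Matrix.sub_mulVec, Matrix.sub_mulVec,
    Matrix.smul_mulVec, Matrix.smul_mulVec, Matrix.one_mulVec, hC, hS, hA, hB]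
  ext σ
  simp only [Pi.add_apply, Pi.sub_apply, Pi.smul_apply, smul_eq_mul]
  push_cast
  ring

theorem opA_form {b : Finset V} {k : ℝ} (hk : 0 ≤ k) (w : (V → Fin 2) → ℂ) :
    (star w ⬝ᵥ (opA b k *ᵥ w)).re ≤ aN k b.card * (star w ⬝ᵥ w).re := by
  have h := form_nonneg b (((aN k b.card : ℝ) : ℂ) • (1 : Opr V) - opA b k)
    (fun w hw lam mu h1 h2 => by
      obtain ⟨N, r, p, hN, hp, hC, hS, hA, hB⟩ := joint hk hw h1 h2
      refine ⟨aN k b.card - aN k N, sub_nonneg.2 (aN_mono hk (by omega)), ?_⟩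
      rw [Matrix.sub_mulVec, Matrix.smul_mulVec, Matrix.one_mulVec, hA, ← sub_smul]
      push_cast
      rfl) w
  rw [Matrix.sub_mulVec, Matrix.smul_mulVec, Matrix.one_mulVec, dotProduct_sub, dotProduct_smul,
    smul_eq_mul, Complex.sub_re, Complex.re_ofReal_mul] at h
  linarith

/-- Traces against a positive semidefinite matrix. -/
theorem trace_form {X : Opr V} {c : ℝ}
    (hX : ∀ w : (V → Fin 2) → ℂ, 0 ≤ (star w ⬝ᵥ (X *ᵥ w)).re)
    {R : Opr V} : 0 ≤ (Matrix.trace (Rᴴ * R * X)).re := by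
  have h1 : Matrix.trace (Rᴴ * R * X) = Matrix.trace (R * X * Rᴴ) := by
    rw [mul_assoc, Matrix.trace_mul_comm, mul_assoc]
  rw [h1, Matrix.trace, Complex.re_sum]
  refine Finset.sum_nonneg fun i _ => ?_
  have h2 := hX (fun j => star (R i j))
  have h3 : (R * X * Rᴴ).diag i = star (fun j => star (R i j)) ⬝ᵥ (X *ᵥ fun j => star (R i j)) := by
    simp only [Matrix.diag, Matrix.mul_apply, dotProduct, Matrix.mulVec,
      Matrix.conjTranspose_apply, Pi.star_apply, star_star, Finset.sum_mul, Finset.mul_sum]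
    rw [Finset.sum_comm]
    refine Finset.sum_congr rfl fun j _ => Finset.sum_congr rfl fun l _ => ?_
    ring
  rw [h3]
  exact h2

end Vale.Agent.P361.LRO.TwJ
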