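import Vale.Agent.P361.LRO.Tw.J.Ladder

/-!
P361, block twist, part 4: joint eigenvectors of the Casimir operator and `S³` of a block.
-/

namespace Vale.Agent.P361.LRO.TwJ

set_option linter.all false

open Matrix Finset
open scoped ComplexOrder

variable {V : Type} [Fintype V] [DecidableEq V]

theorem st_conj (x : V) (A : M2) : (st x A)ᴴ = st x Aᴴ := by
  ext σ τ
  rw [Matrix.conjTranspose_apply, st_apply, st_apply, Matrix.conjTranspose_apply, star_mul']
  congr 1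
  have : (∀ y, y ≠ x → τ y = σ y) ↔ (∀ y, y ≠ x → σ y = τ y) :=
    ⟨fun h y hy => (h y hy).symm, fun h y hy => (h y hy).symm⟩
  simp only [this]
  split_ifs <;> simp

theorem Sg_conj (b : Finset V) (A : M2) : (Sg b A)ᴴ = Sg b Aᴴ := by
  simp only [Sg, Matrix.conjTranspose_sum, st_conj]

theorem sm_conj : smᴴ = sp := by
  ext i j; fin_cases i <;> fin_cases j <;> simp [sm, sp]

theorem sp_conj : spᴴ = sm := by
  ext i j; fin_cases i <;> fin_cases j <;> simp [sm, sp]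

theorem sz_conj : szᴴ = sz := by
  ext i j; fin_cases i <;> fin_cases j <;> simp [sz]

/-- The Casimir operator `S_b²`. -/
noncomputable def Cas (b : Finset V) : Opr V :=
  Sg b sm * Sg b sp + Sg b sz * Sg b sz + Sg b sz

theorem Cas_herm (b : Finset V) : (Cas b).IsHermitian := by
  rw [Matrix.IsHermitian, Cas]
  simp only [Matrix.conjTranspose_add, Matrix.conjTranspose_mul, Sg_conj, sm_conj, sp_conj,
    sz_conj]

theorem Sz_herm (b : Finset V) : (Sg b sz).IsHermitian := by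
  rw [Matrix.IsHermitian, Sg_conj, sz_conj]

theorem Sz_Sm (b : Finset V) : Sg b sz * Sg b sm = Sg b sm * Sg b sz - Sg b sm := by
  have := Sg_comm b sz sm
  rw [comm_sz_sm] at this
  have h2 : Sg b (-sm) = -Sg b sm := by
    have := Sg_smul b (-1) sm
    simpa using this
  rw [h2, sub_eq_iff_eq_add] at this
  rw [this]
  abel

theorem Sz_Sp (b : Finset V) : Sg b sz * Sg b sp = Sg b sp * Sg b sz + Sg b sp := by
  have := Sg_comm b sz sp
  rw [comm_sz_sp] at this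
  rw [← sub_eq_iff_eq_add'.1 this]

theorem Sp_Sm (b : Finset V) :
    Sg b sp * Sg b sm = Sg b sm * Sg b sp + (2 : ℂ) • Sg b sz := by
  have := Sg_comm b sp sm
  rw [comm_sp_sm, Sg_smul] at this
  rw [← sub_eq_iff_eq_add'.1 this]

theorem Cas_Sz (b : Finset V) : Cas b * Sg b sz = Sg b sz * Cas b := by
  have h1 := Sz_Sm b
  have h2 := Sz_Sp b
  set Z := Sg b sz
  set M := Sg b sm
  set Q := Sg b sp
  have h3 : Z * (M * Q) = M * Q * Z := by
    rw [← mul_assoc, h1, sub_mul, mul_assoc, h2]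
    noncomm_ring
  rw [Cas]
  change (M * Q + Z * Z + Z) * Z = Z * (M * Q + Z * Z + Z)
  rw [mul_add, mul_add, h3]
  noncomm_ring

theorem Cas_Sp (b : Finset V) : Cas b * Sg b sp = Sg b sp * Cas b := by
  have h1 := Sp_Sm b
  have h2 := Sz_Sp b
  set Z := Sg b sz
  set M := Sg b sm
  set Q := Sg b sp
  have h2' : Q * Z = Z * Q - Q := by rw [h2]; abel
  have h3 : Q * (M * Q) = M * Q * Q + (2 : ℂ) • (Z * Q) := by
    rw [← mul_assoc, h1, add_mul, Matrix.smul_mul]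
  have h4 : Q * (Z * Z) = Z * Z * Q - (2 : ℂ) • (Z * Q) + Q := by
    rw [← mul_assoc, h2', sub_mul, mul_assoc, h2', mul_sub, two_smul]
    noncomm_ring
  rw [Cas]
  change (M * Q + Z * Z + Z) * Q = Q * (M * Q + Z * Z + Z)
  rw [mul_add, mul_add, h3, h4, h2']
  noncomm_ring

/-- Squared norm. -/
theorem re_star_dot_nonneg (v : (V → Fin 2) → ℂ) : 0 ≤ (star v ⬝ᵥ v).re :=
  (Complex.le_def.1 (dotProduct_star_self_nonneg v)).1

theorem re_star_dot_pos {v : (V → Fin 2) → ℂ} (hv : v ≠ 0) : 0 < (star v ⬝ᵥ v).re := by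
  refine lt_of_le_of_ne (re_star_dot_nonneg v) fun h => hv ?_
  have h1 := Complex.le_def.1 (dotProduct_star_self_nonneg v)
  apply dotProduct_star_self_eq_zero.1
  apply Complex.ext
  · rw [← h]; rfl
  · rw [← h1.2]

theorem form_conj (X : Opr V) (v w : (V → Fin 2) → ℂ) :
    star v ⬝ᵥ (Xᴴ *ᵥ w) = star (X *ᵥ v) ⬝ᵥ w := by
  rw [Matrix.star_mulVec, Matrix.dotProduct_mulVec]

theorem form_sp (b : Finset V) (v w : (V → Fin 2) → ℂ) :
    star v ⬝ᵥ (Sg b sp *ᵥ w) = star (Sg b sm *ᵥ v) ⬝ᵥ w := by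
  rw [← form_conj, Sg_conj, sm_conj]

theorem form_sm (b : Finset V) (v w : (V → Fin 2) → ℂ) :
    star v ⬝ᵥ (Sg b sm *ᵥ w) = star (Sg b sp *ᵥ v) ⬝ᵥ w := by
  rw [← form_conj, Sg_conj, sp_conj]

/-- A joint eigenvector of the Casimir operator and `S³` lies on the ladder of a highest weight
vector. -/
theorem joint {b : Finset V} {k : ℝ} (hk : 0 ≤ k) {w : (V → Fin 2) → ℂ} (hw : w ≠ 0) {lam mu : ℂ}
    (h1 : Cas b *ᵥ w = lam • w) (h2 : Sg b sz *ᵥ w = mu • w) :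
    ∃ N r p : ℕ, N + 2 * r = b.card ∧ p ≤ N ∧
      Cas b *ᵥ w = (((N : ℝ) / 2 * ((N : ℝ) / 2 + 1) : ℝ) : ℂ) • w ∧
      Sg b sz *ᵥ w = (((N : ℝ) / 2 - p : ℝ) : ℂ) • w ∧
      opA b k *ᵥ w = ((aN k N : ℝ) : ℂ) • w ∧
      opB b k *ᵥ w = ((b0N k N - p * b1N k N : ℝ) : ℂ) • w := by
  classical
  -- the weight
  obtain ⟨σ0, hσ0⟩ := Function.ne_iff.1 hw
  have hmu : ∀ σ, w σ ≠ 0 → (b.card : ℂ) / 2 - (nb b σ : ℂ) = mu := by
    intro σ hσ
    have := congrFun h2 σ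
    rw [Sz_eq, Matrix.mulVec_diagonal, Pi.smul_apply, smul_eq_mul] at this
    exact mul_right_cancel₀ hσ this
  set m := nb b σ0 with hm
  have hwm : Supp b m w := by
    intro σ hσ
    have h3 := hmu σ hσ
    have h4 := hmu σ0 hσ0
    have h5 : ((nb b σ : ℤ) : ℂ) = ((m : ℤ) : ℂ) := by
      rw [hm]; linear_combination h4 - h3
    exact_mod_cast h5
  have hmu' : mu = (b.card : ℂ) / 2 - (m : ℂ) := (hmu σ0 hσ0).symm
  -- raising
  have hsupp : ∀ j : ℕ, Supp b (m - j) (Sg b sp ^ j *ᵥ w) := by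
    intro j
    induction j with
    | zero => simpa using hwm
    | succ j ih =>
      rw [pow_succ', ← Matrix.mulVec_mulVec]
      have := (shift_Sp b).supp ih
      convert this using 1
      push_cast; ring
  have hex : ∃ j : ℕ, Sg b sp ^ (j + 1) *ᵥ w = 0 := by
    refine ⟨m.toNat, ?_⟩
    by_contra hne
    obtain ⟨σ, hσ⟩ := Function.ne_iff.1 hne
    have h3 := hsupp (m.toNat + 1) σ hσ
    have h4 := nb_nonneg b σ
    have h5 := nb_nonneg b σ0
    have h6 := Int.toNat_of_nonneg h5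
    push_cast at h3
    omega
  set p := Nat.find hex with hp
  have hp0 : Sg b sp ^ (p + 1) *ᵥ w = 0 := Nat.find_spec hex
  have hpj : ∀ j, j ≤ p → Sg b sp ^ j *ᵥ w ≠ 0 := by
    intro j hj
    cases j with
    | zero => simpa using hw
    | succ j => exact Nat.find_min hex (by omega)
  set v := Sg b sp ^ p *ᵥ w with hv
  have hv0 : v ≠ 0 := hpj p le_rfl
  have hspv : Sg b sp *ᵥ v = 0 := by
    rw [hv, Matrix.mulVec_mulVec, ← pow_succ']
    exact hp0
  have hvs : Supp b (m - p) v := hsupp p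
  obtain ⟨σ1, hσ1⟩ := Function.ne_iff.1 hv0
  have hr1 := hvs σ1 hσ1
  have hr0 := nb_nonneg b σ1
  set r := (m - p).toNat with hr
  have hr2 : (r : ℤ) = m - p := Int.toNat_of_nonneg (by omega)
  rw [← hr2] at hvs
  have hSzv : Sg b sz *ᵥ v = (((b.card : ℂ) / 2 - r)) • v := by
    ext σ
    rw [Sz_eq, Matrix.mulVec_diagonal, Pi.smul_apply, smul_eq_mul]
    by_cases h0 : v σ = 0
    · rw [h0]; simp
    · rw [hvs σ h0]; push_cast; ring
  -- `n - 2 r ≥ 0`
  have hN0 : 2 * r ≤ b.card := by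
    have h3 : star v ⬝ᵥ ((Sg b sp * Sg b sm) *ᵥ v) =
        ((b.card : ℂ) - 2 * r) * (star v ⬝ᵥ v) := by
      rw [Sp_Sm, Matrix.add_mulVec, ← Matrix.mulVec_mulVec, hspv, Matrix.mulVec_zero, zero_add,
        Matrix.smul_mulVec, hSzv, smul_smul, dotProduct_smul, smul_eq_mul]
      ring
    have h4 : star v ⬝ᵥ ((Sg b sp * Sg b sm) *ᵥ v) = star (Sg b sm *ᵥ v) ⬝ᵥ (Sg b sm *ᵥ v) := by
      rw [← Matrix.mulVec_mulVec, form_sp]
    have h5 := re_star_dot_nonneg (Sg b sm *ᵥ v)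
    rw [← h4, h3] at h5
    have h6 := re_star_dot_pos hv0
    have h7 : (((b.card : ℂ) - 2 * r) * (star v ⬝ᵥ v)).re =
        ((b.card : ℝ) - 2 * r) * (star v ⬝ᵥ v).re := by
      rw [Complex.mul_re]; simp
    rw [h7] at h5
    have h8 : 0 ≤ (b.card : ℝ) - 2 * r := by
      by_contra hc
      push Not at hc
      nlinarith
    have : (2 * r : ℝ) ≤ b.card := by linarith
    exact_mod_cast this
  set N := b.card - 2 * r with hNdef
  have hN : N + 2 * r = b.card := by omega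
  have hNr : (N : ℝ) = (b.card : ℝ) - 2 * r := by
    rw [← hN]; push_cast; ring
  have hNc : (b.card : ℂ) = (N : ℂ) + 2 * r := by rw [← hN]; push_cast; ring
  -- the Casimir eigenvalue
  have hCj : ∀ j : ℕ, Cas b *ᵥ (Sg b sp ^ j *ᵥ w) = lam • (Sg b sp ^ j *ᵥ w) := by
    intro j
    induction j with
    | zero => simpa using h1
    | succ j ih =>
      rw [pow_succ', ← Matrix.mulVec_mulVec, Matrix.mulVec_mulVec _ (Cas b), Cas_Sp,
        ← Matrix.mulVec_mulVec, ih, Matrix.mulVec_smul]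
  have hlam : lam = (N : ℂ) / 2 * ((N : ℂ) / 2 + 1) := by
    have h3 := hCj p
    rw [← hv, Cas, Matrix.add_mulVec, Matrix.add_mulVec, ← Matrix.mulVec_mulVec, hspv,
      Matrix.mulVec_zero, zero_add, ← Matrix.mulVec_mulVec, hSzv, Matrix.mulVec_smul, hSzv,
      smul_smul, ← add_smul] at h3
    have h4 := congrFun h3 σ1
    rw [Pi.smul_apply, Pi.smul_apply, smul_eq_mul, smul_eq_mul] at h4
    have h5 := mul_right_cancel₀ hσ1 h4
    rw [← h5, hNc]; ring
  have hmuN : mu = (N : ℂ) / 2 - p := by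
    rw [hmu', hNc]
    have : ((m : ℤ) : ℂ) = (r : ℂ) + p := by
      have : (m : ℤ) = r + p := by omega
      rw [this]; push_cast; ring
    rw [this]; ring
  have hSzj : ∀ j : ℕ, Sg b sz *ᵥ (Sg b sp ^ j *ᵥ w) = (mu + j) • (Sg b sp ^ j *ᵥ w) := by
    intro j
    ext σ
    rw [Sz_eq, Matrix.mulVec_diagonal, Pi.smul_apply, smul_eq_mul]
    by_cases h0 : (Sg b sp ^ j *ᵥ w) σ = 0
    · rw [h0]; simp
    · rw [hsupp j σ h0, hmu']; push_cast; ring
  have hSmSp : ∀ j : ℕ, (Sg b sm * Sg b sp) *ᵥ (Sg b sp ^ j *ᵥ w) =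
      (lam - (mu + j) * (mu + j) - (mu + j)) • (Sg b sp ^ j *ᵥ w) := by
    intro j
    have h3 : Sg b sm * Sg b sp = Cas b - Sg b sz * Sg b sz - Sg b sz := by
      rw [Cas]; abel
    rw [h3, Matrix.sub_mulVec, Matrix.sub_mulVec, hCj, ← Matrix.mulVec_mulVec, hSzj,
      Matrix.mulVec_smul, hSzj, smul_smul, sub_smul, sub_smul]
  -- descending back to `w`
  have hkap : ∀ j : ℕ, j ≤ p → ∃ c : ℂ, c ≠ 0 ∧ Sg b sm ^ j *ᵥ (Sg b sp ^ j *ᵥ w) = c • w := by
    intro j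
    induction j with
    | zero => intro _; exact ⟨1, one_ne_zero, by simp⟩
    | succ j ih =>
      intro hj
      obtain ⟨c, hc, hcw⟩ := ih (by omega)
      refine ⟨(lam - (mu + j) * (mu + j) - (mu + j)) * c, mul_ne_zero ?_ hc, ?_⟩
      · intro h0
        have h3 := hSmSp j
        rw [h0, zero_smul] at h3
        have h4 : star (Sg b sp ^ j *ᵥ w) ⬝ᵥ ((Sg b sm * Sg b sp) *ᵥ (Sg b sp ^ j *ᵥ w)) =
            star (Sg b sp *ᵥ (Sg b sp ^ j *ᵥ w)) ⬝ᵥ (Sg b sp *ᵥ (Sg b sp ^ j *ᵥ w)) := by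
          rw [← Matrix.mulVec_mulVec, form_sm]
        rw [h3, dotProduct_zero] at h4
        have h5 := dotProduct_star_self_eq_zero.1 h4.symm
        apply hpj (j + 1) hj
        rw [pow_succ', ← Matrix.mulVec_mulVec]
        exact h5
      · have h3 : Sg b sm ^ (j + 1) *ᵥ (Sg b sp ^ (j + 1) *ᵥ w) =
            Sg b sm ^ j *ᵥ ((Sg b sm * Sg b sp) *ᵥ (Sg b sp ^ j *ᵥ w)) := by
          rw [Matrix.mulVec_mulVec, Matrix.mulVec_mulVec, Matrix.mulVec_mulVec, pow_succ,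
            pow_succ']
          simp only [mul_assoc]
        rw [h3, hSmSp, Matrix.mulVec_smul, hcw, smul_smul]
  obtain ⟨c, hc, hcw⟩ := hkap p le_rfl
  rw [← hv] at hcw
  have hwv : w = c⁻¹ • (Sg b sm ^ p *ᵥ v) := by
    rw [hcw, smul_smul, inv_mul_cancel₀ hc, one_smul]
  refine ⟨N, r, p, hN, ?_, ?_, ?_, ?_, ?_⟩
  · -- `p ≤ N`
    have h3 : star w ⬝ᵥ ((Sg b sp * Sg b sm) *ᵥ w) =
        (lam - mu * mu + mu) * (star w ⬝ᵥ w) := by
      have h4 := hSmSp 0
      simp only [pow_zero, Matrix.one_mulVec, Nat.cast_zero, add_zero] at h4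
      rw [Sp_Sm, Matrix.add_mulVec, h4, Matrix.smul_mulVec, h2, smul_smul, ← add_smul,
        dotProduct_smul, smul_eq_mul]
      ring
    have h4 : star w ⬝ᵥ ((Sg b sp * Sg b sm) *ᵥ w) = star (Sg b sm *ᵥ w) ⬝ᵥ (Sg b sm *ᵥ w) := by
      rw [← Matrix.mulVec_mulVec, form_sp]
    have h5 := re_star_dot_nonneg (Sg b sm *ᵥ w)
    rw [← h4, h3] at h5
    have h6 := re_star_dot_pos hw
    have h7 : lam - mu * mu + mu = ((((N : ℝ) - p) * (p + 1) : ℝ) : ℂ) := by
      rw [hlam, hmuN]; push_cast; ring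
    rw [h7, Complex.re_ofReal_mul] at h5
    by_contra hc
    push Not at hc
    have h8 : (N : ℝ) < p := by exact_mod_cast hc
    have h9 : (((N : ℝ) - p) * (p + 1)) < 0 :=
      mul_neg_of_neg_of_pos (by linarith) (by positivity)
    nlinarith
  · rw [h1, hlam]; push_cast; rfl
  · rw [h2, hmuN]; push_cast; rfl
  · conv_lhs => rw [hwv]
    rw [Matrix.mulVec_smul, opA_ladder hk hN hvs hspv, smul_comm, ← hwv]
  · conv_lhs => rw [hwv]
    rw [Matrix.mulVec_smul, opB_ladder hk hN hvs hspv, smul_comm, ← hwv]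

end Vale.Agent.P361.LRO.TwJ
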