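import Vale.Agent.P361.LRO.Tw.J.Unif
import Vale.Agent.P361.LRO.Tw.Gibbs

/-!
P361, stage 3, (LT0): `tr exp(-β H_b + g(N_b)) ≤ (|b| + 1) (A tr exp(-β H_b - τ₁ D_b) + …)` for
couplings inside the block, `exp g ≤ A exp(-τ₁ r) + B exp(-τ₂ r)`.
-/

namespace Vale.Agent.P361.LRO.TwJ

set_option linter.all false

open Matrix Finset
open scoped ComplexOrder

variable {V : Type} [Fintype V] [DecidableEq V]

theorem swap_comm_Sg {b : Finset V} {x y : V} (hx : x ∈ b) (hy : y ∈ b) (A : M2) :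
    Sg b A * cm (swapM x y) = cm (swapM x y) * Sg b A := by
  have hs : ∀ z, Equiv.swap x y z ∈ b ↔ z ∈ b := by
    intro z
    by_cases hzx : z = x
    · subst hzx; simp [hx, hy]
    · by_cases hzy : z = y
      · subst hzy; simp [hx, hy]
      · rw [Equiv.swap_apply_of_ne_of_ne hzx hzy]
  have hinv : ∀ σ τ : V → Fin 2, σ = τ ∘ Equiv.swap x y ↔ τ = σ ∘ Equiv.swap x y := by
    intro σ τ
    constructor
    · intro h; rw [h]; ext1 z; simp
    · intro h; rw [h]; ext1 z; simp
  have h1 : ∀ (X : Opr V) σ τ, (cm (swapM x y) * X) σ τ = X (σ ∘ Equiv.swap x y) τ := by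
    intro X σ τ
    rw [Matrix.mul_apply, Finset.sum_eq_single (σ ∘ Equiv.swap x y)]
    · rw [cm, Matrix.of_apply, swapM, Matrix.of_apply, if_pos ((hinv _ _).2 rfl)]; simp
    · intro ρ _ hρ
      rw [cm, Matrix.of_apply, swapM, Matrix.of_apply, if_neg (fun h => hρ ((hinv _ _).1 h))]; simp
    · intro h; exact absurd (Finset.mem_univ _) h
  have h2 : ∀ (X : Opr V) σ τ, (X * cm (swapM x y)) σ τ = X σ (τ ∘ Equiv.swap x y) := by
    intro X σ τ
    rw [Matrix.mul_apply, Finset.sum_eq_single (τ ∘ Equiv.swap x y)]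
    · rw [cm, Matrix.of_apply, swapM, Matrix.of_apply, if_pos rfl]; simp
    · intro ρ _ hρ
      rw [cm, Matrix.of_apply, swapM, Matrix.of_apply, if_neg hρ]; simp
    · intro h; exact absurd (Finset.mem_univ _) h
  ext σ τ
  rw [h1, h2, Sg, Matrix.sum_apply, Matrix.sum_apply]
  refine Finset.sum_bij' (fun z _ => Equiv.swap x y z) (fun z _ => Equiv.swap x y z)
    (fun z hz => (hs z).2 hz) (fun z hz => (hs z).2 hz) (fun z _ => by simp) (fun z _ => by simp)
    fun z hz => ?_
  rw [st_apply, st_apply]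
  simp only [Function.comp_apply, Equiv.swap_apply_self]
  congr 1
  have : (∀ w, w ≠ z → σ w = τ (Equiv.swap x y w)) ↔
      (∀ w, w ≠ Equiv.swap x y z → σ (Equiv.swap x y w) = τ w) := by
    constructor
    · intro h w hw
      have := h (Equiv.swap x y w) (fun h' => hw (by rw [← h']; simp))
      rwa [Equiv.swap_apply_self] at this
    · intro h w hw
      have := h (Equiv.swap x y w) (fun h' => hw ((Equiv.swap x y).injective h'))
      rwa [Equiv.swap_apply_self] at this
  simp only [this]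

theorem hM_comm_Sg {b : Finset V} {x y : V} (hx : x ∈ b) (hy : y ∈ b) (A : M2) :
    Sg b A * cm (hM x y) = cm (hM x y) * Sg b A := by
  rw [hM, cm_smul, cm_sub, cm_one, Matrix.smul_mul, Matrix.mul_smul, Matrix.sub_mul,
    Matrix.mul_sub, swap_comm_Sg hx hy, one_mul, mul_one]

theorem cm_zero : cm (0 : Matrix (V → Fin 2) (V → Fin 2) ℝ) = 0 := by
  ext σ τ; simp [cm]

theorem ham_comm_Sg {b : Finset V} {L : List (V × V)} (hL : ∀ e ∈ L, e.1 ∈ b ∧ e.2 ∈ b)
    (A : M2) :
    Sg b A * cm (ham L fun _ => 0) = cm (ham L fun _ => 0) * Sg b A := by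
  have h0 : ham L (fun _ : V => (0 : ℝ)) = (L.map fun e => hM e.1 e.2).sum := by
    simp [ham]
  rw [h0]
  clear h0
  induction L with
  | nil => simp [cm_zero]
  | cons e L ih =>
    rw [List.map_cons, List.sum_cons, cm_add, mul_add, add_mul,
      hM_comm_Sg (hL e (by simp)).1 (hL e (by simp)).2, ih fun e' he' => hL e' (by simp [he'])]

theorem comm_cm_exp {Y : Opr V} {A : Matrix (V → Fin 2) (V → Fin 2) ℝ}
    (h : Y * cm A = cm A * Y) : Y * cm (NormedSpace.exp A) = cm (NormedSpace.exp A) * Y := by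
  have h3 := hasSum_exp_matrix A
  have hcm : Continuous fun X : Matrix (V → Fin 2) (V → Fin 2) ℝ => cm X := by
    unfold cm
    fun_prop
  have hc : Continuous fun X : Matrix (V → Fin 2) (V → Fin 2) ℝ =>
      Y * cm X - cm X * Y := by fun_prop
  have h4 := h3.map (⟨⟨fun X : Matrix (V → Fin 2) (V → Fin 2) ℝ =>
      Y * cm X - cm X * Y, by simp [cm_zero]⟩, by
        intro X Z
        simp only [cm_add, Matrix.mul_add, Matrix.add_mul]
        abel⟩ :
          Matrix (V → Fin 2) (V → Fin 2) ℝ →+ Opr V) hc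
  have hp : ∀ n : ℕ, Y * cm (A ^ n) = cm (A ^ n) * Y := by
    intro n
    induction n with
    | zero => simp [cm_one]
    | succ n ih => rw [pow_succ, cm_mul, ← mul_assoc, ih, mul_assoc, h, mul_assoc]
  have h5 : HasSum (fun _ : ℕ => (0 : Opr V))
      (Y * cm (NormedSpace.exp A) - cm (NormedSpace.exp A) * Y) := by
    refine h4.congr_fun ?_
    intro n
    change 0 = Y * cm (((n.factorial : ℝ)⁻¹) • A ^ n) - cm (((n.factorial : ℝ)⁻¹) • A ^ n) * Y
    rw [cm_smul, Matrix.mul_smul, Matrix.smul_mul, hp, sub_self]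
  exact sub_eq_zero.1 (h5.unique hasSum_zero)

theorem cm_injective : Function.Injective
    (cm : Matrix (V → Fin 2) (V → Fin 2) ℝ → Opr V) := by
  intro A B h
  ext σ τ
  have := congrFun (congrFun h σ) τ
  simpa [cm] using this

theorem comm_of_Sg {b : Finset V} {X : Matrix (V → Fin 2) (V → Fin 2) ℝ}
    (h : ∀ A : M2, Sg b A * cm X = cm X * Sg b A) : Commute X (Om b) ∧ Commute X (Dn b) := by
  have hC : Cas b * cm X = cm X * Cas b := by
    have e1 : Sg b sm * Sg b sp * cm X = cm X * (Sg b sm * Sg b sp) := by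
      rw [mul_assoc, h sp, ← mul_assoc, h sm, mul_assoc]
    have e2 : Sg b sz * Sg b sz * cm X = cm X * (Sg b sz * Sg b sz) := by
      rw [mul_assoc, h sz, ← mul_assoc, h sz, mul_assoc]
    rw [Cas, Matrix.add_mul, Matrix.add_mul, Matrix.mul_add, Matrix.mul_add, e1, e2, h sz]
  constructor
  · apply cm_injective
    rw [cm_mul, cm_mul, cm_Om, Matrix.mul_sub, Matrix.sub_mul, Matrix.mul_smul, Matrix.smul_mul,
      mul_one, one_mul, hC]
  · apply cm_injective
    rw [cm_mul, cm_mul, cm_Dn, Matrix.mul_sub, Matrix.sub_mul, Matrix.mul_smul, Matrix.smul_mul,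
      mul_one, one_mul, h sz]

theorem commute_aeval {X A : Matrix (V → Fin 2) (V → Fin 2) ℝ} (h : Commute X A)
    (P : Polynomial ℝ) : Commute X (Polynomial.aeval A P) := by
  induction P using Polynomial.induction_on with
  | C a =>
    rw [Polynomial.aeval_C]
    exact Algebra.commutes' a X |>.symm
  | add p q hp hq => rw [map_add]; exact hp.add_right hq
  | monomial n a ih =>
    rw [pow_succ, ← mul_assoc, map_mul, Polynomial.aeval_X]
    exact ih.mul_right h

theorem hsym_exp (L : List (V × V)) (β : ℝ) (h : V → ℝ) (σ τ : V → Fin 2)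
    (hd : NormedSpace.exp (-β • ham L h) σ τ ≠ 0) :
    ∑ x, ((σ x : ℕ) : ℤ) = ∑ x, ((τ x : ℕ) : ℤ) := by
  have h1 := Tw.expH_cons L β h σ τ hd
  unfold Tw.dn at h1
  exact_mod_cast h1

/-- **(LT0), law form.** -/
theorem lt0_law {b : Finset V} {L : List (V × V)} (hL : ∀ e ∈ L, e.1 ∈ b ∧ e.2 ∈ b) (β : ℝ)
    {g : ℕ → ℝ} {G : Polynomial ℝ}
    (hG : ∀ r : ℕ, 2 * r ≤ b.card → G.eval ((r : ℝ) * ((b.card : ℝ) - r + 1)) = g r)
    {A B τ₁ τ₂ : ℝ} (hA : 0 ≤ A) (hB : 0 ≤ B) (h1 : 0 ≤ τ₁) (h2 : 0 ≤ τ₂)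
    (hgAB : ∀ r : ℕ, 2 * r ≤ b.card →
      Real.exp (g r) ≤ A * Real.exp (-τ₁ * r) + B * Real.exp (-τ₂ * r)) :
    Matrix.trace (NormedSpace.exp (-β • ham L (fun _ => 0) + Polynomial.aeval (Om b) G)) ≤
      ((b.card : ℝ) + 1) * (A * Matrix.trace
        (NormedSpace.exp (-β • ham L (fun _ => 0) - τ₁ • Dn b)) +
          B * Matrix.trace (NormedSpace.exp (-β • ham L (fun _ => 0) - τ₂ • Dn b))) := by
  have hcS := ham_comm_Sg hL
  obtain ⟨c1, c2⟩ := comm_of_Sg hcS
  set W := NormedSpace.exp (-β • ham L (fun _ : V => (0 : ℝ))) with hW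
  have hcomm : Sg b sp * cm W = cm W * Sg b sp := by
    apply comm_cm_exp
    rw [cm_smul, Matrix.mul_smul, Matrix.smul_mul, hcS]
  obtain ⟨ι, hι, μ, N, r, p, hμ, hNp, hlaw, -, -⟩ :=
    joint_law_poly (Tw.expH_psd L β fun _ => 0) (hsym_exp L β fun _ => 0) b
  rw [← hW] at hlaw
  have hN := fun i => (hNp i).1
  have hp := fun i => (hNp i).2
  -- the left side
  have e1 : NormedSpace.exp (-β • ham L (fun _ => 0) + Polynomial.aeval (Om b) G) =
      W * NormedSpace.exp ((1 : ℝ) • Polynomial.aeval (Om b) G) := by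
    rw [one_smul, hW]
    exact Matrix.exp_add_of_commute _ _ (commute_aeval (c1.smul_left _) G)
  have e2 : ∀ τ : ℝ, Matrix.trace (NormedSpace.exp (-β • ham L (fun _ => 0) - τ • Dn b)) =
      ∑ i, μ i * Real.exp (-τ * ((r i : ℝ) + p i)) := by
    intro τ
    have h3 : NormedSpace.exp (-β • ham L (fun _ => 0) - τ • Dn b) =
        W * NormedSpace.exp (-τ • Dn b) := by
      rw [hW, sub_eq_add_neg, ← neg_smul]
      exact Matrix.exp_add_of_commute _ _ ((c2.smul_left _).smul_right _)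
    rw [h3]
    have h4 := law_exp2 hlaw 0 (Polynomial.C (-τ) * Polynomial.X)
    simp only [Polynomial.eval_zero, Real.exp_zero, one_mul, Polynomial.eval_mul,
      Polynomial.eval_C, Polynomial.eval_X, map_zero, NormedSpace.exp_zero, map_mul,
      Polynomial.aeval_C, Polynomial.aeval_X, Algebra.algebraMap_eq_smul_one, Matrix.smul_mul]
      at h4
    exact h4.symm
  rw [e1, ← (law_fun hN hlaw hG).2 1, e2, e2]
  have hF := law_le hμ hN hp hlaw hcomm (g := fun r : ℕ =>
    A * Real.exp (-τ₁ * r) + B * Real.exp (-τ₂ * r)) (fun x _ => by positivity)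
  calc ∑ i, μ i * Real.exp (1 * g (r i)) ≤
        ∑ i, μ i * (A * Real.exp (-τ₁ * r i) + B * Real.exp (-τ₂ * r i)) := by
        refine Finset.sum_le_sum fun i _ => mul_le_mul_of_nonneg_left ?_ (hμ i)
        rw [one_mul]
        exact hgAB _ (by have := hN i; omega)
    _ ≤ _ := hF
    _ ≤ _ := by
        refine mul_le_mul_of_nonneg_left ?_ (by positivity)
        rw [Finset.mul_sum, Finset.mul_sum, ← Finset.sum_add_distrib]
        refine Finset.sum_le_sum fun i _ => ?_
        have hμi := hμ i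
        split_ifs with h0
        · rw [h0]
          simp only [Nat.cast_zero, add_zero]
          exact le_of_eq (by ring)
        · rw [mul_zero]
          positivity

end Vale.Agent.P361.LRO.TwJ
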