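import Vale.Agent.P361.LRO.Tw.J.LT0

/-!
P361, stage 3, (LT0) for a general positive semidefinite matrix `W` commuting with the block
spin (all spins: `W = P exp(-β H)`).
-/

namespace Vale.Agent.P361.LRO.TwJ

set_option linter.all false

open Matrix Finset
open scoped ComplexOrder

variable {V : Type} [Fintype V] [DecidableEq V]

/-- **(LT0), general form.** -/
theorem lt0_gen {W : Matrix (V → Fin 2) (V → Fin 2) ℝ} (hW : W.PosSemidef)
    (hsym : ∀ σ τ, W σ τ ≠ 0 → ∑ x, ((σ x : ℕ) : ℤ) = ∑ x, ((τ x : ℕ) : ℤ))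
    {b : Finset V} (hcomm : Sg b sp * cm W = cm W * Sg b sp)
    {g : ℕ → ℝ} {G : Polynomial ℝ}
    (hG : ∀ r : ℕ, 2 * r ≤ b.card → G.eval ((r : ℝ) * ((b.card : ℝ) - r + 1)) = g r)
    {A B τ₁ τ₂ : ℝ} (hA : 0 ≤ A) (hB : 0 ≤ B)
    (hgAB : ∀ r : ℕ, 2 * r ≤ b.card →
      Real.exp (g r) ≤ A * Real.exp (-τ₁ * r) + B * Real.exp (-τ₂ * r)) :
    Matrix.trace (W * NormedSpace.exp (Polynomial.aeval (Om b) G)) ≤
      ((b.card : ℝ) + 1) * (A * Matrix.trace (W * NormedSpace.exp (-τ₁ • Dn b)) +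
          B * Matrix.trace (W * NormedSpace.exp (-τ₂ • Dn b))) := by
  obtain ⟨ι, hι, μ, N, r, p, hμ, hNp, hlaw, -, -⟩ := joint_law_poly hW hsym b
  have hN := fun i => (hNp i).1
  have hp := fun i => (hNp i).2
  have e1 : NormedSpace.exp (Polynomial.aeval (Om b) G) =
      NormedSpace.exp ((1 : ℝ) • Polynomial.aeval (Om b) G) := by
    rw [one_smul]
  have e2 : ∀ τ : ℝ, Matrix.trace (W * NormedSpace.exp (-τ • Dn b)) =
      ∑ i, μ i * Real.exp (-τ * ((r i : ℝ) + p i)) := by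
    intro τ
    have h4 := law_exp2 hlaw 0 (Polynomial.C (-τ) * Polynomial.X)
    simp only [Polynomial.eval_zero, Real.exp_zero, one_mul, Polynomial.eval_mul,
      Polynomial.eval_C, Polynomial.eval_X, map_zero, NormedSpace.exp_zero, map_mul,
      Polynomial.aeval_C, Polynomial.aeval_X, Algebra.algebraMap_eq_smul_one, Matrix.smul_mul]
      at h4
    exact h4.symm
  rw [e1, ← (law_fun hN hlaw hG).2 1, e2, e2]
  have hF := law_le hμ hN hp hlaw hcomm (g := fun r : ℕ =>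
    A * Real.exp (-τ₁ * r) + B * Real.exp (-τ₂ * r)) (fun x _ => by positivity)
  calc ∑ i, μ i * Real.exp (1 * g (r i)) ≤
        ∑ i, μ i * (A * Real.exp (-τ₁ * r i) + B * Real.exp (-τ₂ * r i)) := by
        refine Finset.sum_le_sum fun i _ => mul_le_mul_of_nonneg_left ?_ (hμ i)
        rw [one_mul]
        exact hgAB _ (by have := hN i; omega)
    _ ≤ _ := hF
    _ ≤ _ := by
        refine mul_le_mul_of_nonneg_left ?_ (by positivity)
        rw [Finset.mul_sum, Finset.mul_sum, ← Finset.sum_add_distrib]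
        refine Finset.sum_le_sum fun i _ => ?_
        have hμi := hμ i
        split_ifs with h0
        · rw [h0]
          simp only [Nat.cast_zero, add_zero]
          exact le_of_eq (by ring)
        · rw [mul_zero]
          positivity

/-- Product of commuting matrices: positive semidefinite. -/
theorem psd_mul {P W : Matrix (V → Fin 2) (V → Fin 2) ℝ} (hP : P.PosSemidef) (hPP : P * P = P)
    (hW : W.PosSemidef) (h : Commute P W) : (P * W).PosSemidef := by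
  have h1 : P * W = P * W * Pᴴ := by
    rw [hP.1.eq, mul_assoc, ← h.eq, ← mul_assoc, hPP]
  rw [h1]
  exact hW.mul_mul_conjTranspose_same P

theorem hsym_mul {P W : Matrix (V → Fin 2) (V → Fin 2) ℝ}
    (hP : ∀ σ τ, P σ τ ≠ 0 → ∑ x, ((σ x : ℕ) : ℤ) = ∑ x, ((τ x : ℕ) : ℤ))
    (hW : ∀ σ τ, W σ τ ≠ 0 → ∑ x, ((σ x : ℕ) : ℤ) = ∑ x, ((τ x : ℕ) : ℤ)) (σ τ : V → Fin 2)
    (h : (P * W) σ τ ≠ 0) : ∑ x, ((σ x : ℕ) : ℤ) = ∑ x, ((τ x : ℕ) : ℤ) := by
  rw [Matrix.mul_apply] at h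
  obtain ⟨ρ, _, hρ⟩ := Finset.exists_ne_zero_of_sum_ne_zero h
  exact (hP _ _ (left_ne_zero_of_mul hρ)).trans (hW _ _ (right_ne_zero_of_mul hρ))

theorem comm_Sg_mul {b : Finset V} {A : M2} {P W : Matrix (V → Fin 2) (V → Fin 2) ℝ}
    (hP : Sg b A * cm P = cm P * Sg b A) (hW : Sg b A * cm W = cm W * Sg b A) :
    Sg b A * cm (P * W) = cm (P * W) * Sg b A := by
  rw [cm_mul, ← mul_assoc, hP, mul_assoc, hW, mul_assoc]

end Vale.Agent.P361.LRO.TwJ
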