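import Vale.Agent.P361.LRO.Tw.J.Rot

/-!
P361, block twist, part 3: the operators `A`, `B`, `C` on the ladder of a highest weight vector.
-/

namespace Vale.Agent.P361.LRO.TwJ

set_option linter.all false

open Matrix Finset MeasureTheory intervalIntegral

variable {V : Type} [Fintype V] [DecidableEq V]

/-- Upper unipotent matrix. -/
noncomputable def Um (u : ℝ) : M2 := !![1, (u : ℂ); 0, 1]
/-- Lower unipotent matrix. -/
noncomputable def Lm (u : ℝ) : M2 := !![1, 0; (u : ℂ), 1]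
/-- Diagonal matrix. -/
noncomputable def Dm (d : ℝ) : M2 := !![(d : ℂ), 0; 0, (d : ℂ)⁻¹]

theorem hasDerivAt_Um (u : ℝ) (i j : Fin 2) : HasDerivAt (fun u => Um u i j) (sp i j) u := by
  fin_cases i <;> fin_cases j
  · simpa [Um, sp] using hasDerivAt_const u (1 : ℂ)
  · simpa [Um, sp] using (hasDerivAt_id u).ofReal_comp
  · simpa [Um, sp] using hasDerivAt_const u (0 : ℂ)
  · simpa [Um, sp] using hasDerivAt_const u (1 : ℂ)

theorem hasDerivAt_Lm (u : ℝ) (i j : Fin 2) : HasDerivAt (fun u => Lm u i j) (sm i j) u := by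
  fin_cases i <;> fin_cases j
  · simpa [Lm, sm] using hasDerivAt_const u (1 : ℂ)
  · simpa [Lm, sm] using hasDerivAt_const u (0 : ℂ)
  · simpa [Lm, sm] using (hasDerivAt_id u).ofReal_comp
  · simpa [Lm, sm] using hasDerivAt_const u (1 : ℂ)

theorem Um_mul_sp (u : ℝ) : Um u * sp = sp := by
  ext i j; fin_cases i <;> fin_cases j <;> simp [Um, sp, Matrix.mul_apply, Fin.sum_univ_two]

theorem sm_mul_Lm (u : ℝ) : sm * Lm u = sm := by
  ext i j; fin_cases i <;> fin_cases j <;> simp [Lm, sm, Matrix.mul_apply, Fin.sum_univ_two]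

theorem gauss_aux {d β e : ℝ} (hd : d ≠ 0) (he : e * d = β ^ 2 + 1) :
    Lm (β / d) * Dm d * Um (β / d) = !![(d : ℂ), (β : ℂ); (β : ℂ), (e : ℂ)] := by
  have hd' : (d : ℂ) ≠ 0 := by exact_mod_cast hd
  have he' : (e : ℂ) * d = β ^ 2 + 1 := by exact_mod_cast he
  ext i j
  fin_cases i <;> fin_cases j
  · simp [Lm, Dm, Um, Matrix.mul_apply, Fin.sum_univ_two]
  · simp [Lm, Dm, Um, Matrix.mul_apply, Fin.sum_univ_two]
    field_simp
  · simp [Lm, Dm, Um, Matrix.mul_apply, Fin.sum_univ_two]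
    field_simp
  · simp [Lm, Dm, Um, Matrix.mul_apply, Fin.sum_univ_two]
    field_simp
    linear_combination -he'

theorem gauss (k θ : ℝ) (hd : Real.cosh (k / 2) + Real.sinh (k / 2) * Real.cos θ ≠ 0) :
    Lm (Real.sinh (k / 2) * Real.sin θ / (Real.cosh (k / 2) + Real.sinh (k / 2) * Real.cos θ)) *
      Dm (Real.cosh (k / 2) + Real.sinh (k / 2) * Real.cos θ) *
      Um (Real.sinh (k / 2) * Real.sin θ / (Real.cosh (k / 2) + Real.sinh (k / 2) * Real.cos θ))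
      = gm k θ := by
  have h1 := Real.cosh_sq (k / 2)
  have h2 := Real.sin_sq_add_cos_sq θ
  have key : (Real.cosh (k / 2) - Real.sinh (k / 2) * Real.cos θ) *
      (Real.cosh (k / 2) + Real.sinh (k / 2) * Real.cos θ) =
      (Real.sinh (k / 2) * Real.sin θ) ^ 2 + 1 := by nlinarith
  rw [gauss_aux hd key]
  rfl

/-- `v` is supported on the configurations with `m` down spins in the block. -/
def Supp (b : Finset V) (m : ℤ) (v : (V → Fin 2) → ℂ) : Prop := ∀ σ, v σ ≠ 0 → nb b σ = m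

theorem Supp.smul {b : Finset V} {m : ℤ} {v : (V → Fin 2) → ℂ} (h : Supp b m v) (c : ℂ) :
    Supp b m (c • v) := fun σ hσ => h σ fun h0 => hσ (by simp [h0])

theorem Shift.supp {b : Finset V} {r m : ℤ} {X : Opr V} {v : (V → Fin 2) → ℂ} (hX : Shift b r X)
    (hv : Supp b m v) : Supp b (m + r) (X *ᵥ v) := by
  intro σ hσ
  rw [Matrix.mulVec, dotProduct] at hσ
  obtain ⟨τ, _, hτ⟩ := Finset.exists_ne_zero_of_sum_ne_zero hσ
  have h1 := hX σ τ (left_ne_zero_of_mul hτ)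
  have h2 := hv τ (right_ne_zero_of_mul hτ)
  omega

theorem Pi_mulVec {b : Finset V} {m : ℤ} {v : (V → Fin 2) → ℂ} (hv : Supp b m v) (q : ℤ)
    (X : Opr V) (σ : V → Fin 2) :
    (Pi b q X *ᵥ v) σ = if nb b σ = m + q then (X *ᵥ v) σ else 0 := by
  simp only [Matrix.mulVec, dotProduct, Pi, Matrix.of_apply]
  split_ifs with h
  · refine Finset.sum_congr rfl fun τ _ => ?_
    by_cases h0 : v τ = 0
    · simp [h0]
    · rw [if_pos]
      have := hv τ h0
      omega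
  · refine Finset.sum_eq_zero fun τ _ => ?_
    by_cases h0 : v τ = 0
    · simp [h0]
    · rw [if_neg, zero_mul]
      have := hv τ h0
      omega

theorem pr_Um_mulVec (b : Finset V) {v : (V → Fin 2) → ℂ} (h : Sg b sp *ᵥ v = 0) (u : ℝ) :
    pr b (Um u) *ᵥ v = v := by
  have hd : ∀ (σ : V → Fin 2) (u : ℝ), HasDerivAt (fun u => (pr b (Um u) *ᵥ v) σ) 0 u := by
    intro σ u
    have h1 : HasDerivAt (fun u => ∑ τ, pr b (Um u) σ τ * v τ)
        (∑ τ, (∑ x ∈ b, P (Function.update (blk b (Um u)) x sp)) σ τ * v τ) u :=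
      HasDerivAt.fun_sum fun τ _ =>
        (hasDerivAt_pr b Um sp u (fun i j => hasDerivAt_Um u i j) σ τ).mul_const _
    have h2 : (∑ τ, (∑ x ∈ b, P (Function.update (blk b (Um u)) x sp)) σ τ * v τ) = 0 := by
      have h3 : (∑ x ∈ b, P (Function.update (blk b (Um u)) x sp)) = pr b (Um u) * Sg b sp := by
        rw [pr_mul_Sg, Um_mul_sp]
      rw [h3]
      have h4 : ((pr b (Um u) * Sg b sp) *ᵥ v) σ = 0 := by
        rw [← Matrix.mulVec_mulVec, h, Matrix.mulVec_zero]; rfl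
      exact h4
    rw [h2] at h1
    exact h1
  ext σ
  have h5 : (pr b (Um u) *ᵥ v) σ = (pr b (Um 0) *ᵥ v) σ :=
    is_const_of_deriv_eq_zero (f := fun u => (pr b (Um u) *ᵥ v) σ)
      (fun u => (hd σ u).differentiableAt) (fun u => (hd σ u).deriv) u 0
  rw [h5]
  have h6 : Um 0 = 1 := by
    ext i j; fin_cases i <;> fin_cases j <;> simp [Um]
  rw [h6, pr_one, Matrix.one_mulVec]

theorem Pi_zero_Lm (b : Finset V) (u : ℝ) : Pi b 0 (pr b (Lm u)) = 1 := by
  ext σ τ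
  simp only [Pi, Matrix.of_apply]
  by_cases hst : σ = τ
  · subst hst
    rw [sub_self, if_pos rfl, Matrix.one_apply_eq, pr, P, Matrix.of_apply]
    refine Finset.prod_eq_one fun y _ => ?_
    rw [blk]
    split_ifs
    · generalize σ y = i
      fin_cases i <;> simp [Lm]
    · rw [Matrix.one_apply_eq]
  · rw [Matrix.one_apply_ne hst]
    split_ifs with h
    · rw [pr, P, Matrix.of_apply]
      by_contra hne
      rw [← Ne, Finset.prod_ne_zero_iff] at hne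
      have h1 : ∀ y ∈ b, ((τ y : ℕ) : ℤ) ≤ ((σ y : ℕ) : ℤ) := by
        intro y hy
        have := hne y (Finset.mem_univ y)
        rw [blk, if_pos hy] at this
        revert this
        generalize σ y = i
        generalize τ y = j
        intro this
        fin_cases i <;> fin_cases j <;> simp [Lm] at this ⊢
      have h2 : ∀ y ∈ b, ((τ y : ℕ) : ℤ) = ((σ y : ℕ) : ℤ) :=
        (Finset.sum_eq_sum_iff_of_le h1).1 (by rw [nb, nb] at h; linarith)
      apply hst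
      ext1 y
      by_cases hy : y ∈ b
      · have := h2 y hy
        apply Fin.ext
        omega
      · have := hne y (Finset.mem_univ y)
        rw [blk, if_neg hy] at this
        by_contra hc
        exact this (Matrix.one_apply_ne hc)
    · rfl

theorem Pi_one_Lm (b : Finset V) (u : ℝ) : Pi b 1 (pr b (Lm u)) = (u : ℂ) • Sg b sm := by
  have hd : ∀ (σ τ : V → Fin 2) (u : ℝ),
      HasDerivAt (fun u => Pi b 1 (pr b (Lm u)) σ τ - (u : ℂ) * Sg b sm σ τ) 0 u := by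
    intro σ τ u
    have h1 : HasDerivAt (fun u => Pi b 1 (pr b (Lm u)) σ τ)
        (Pi b 1 (∑ x ∈ b, P (Function.update (blk b (Lm u)) x sm)) σ τ) u := by
      simp only [Pi, Matrix.of_apply]
      split_ifs
      · exact hasDerivAt_pr b Lm sm u (fun i j => hasDerivAt_Lm u i j) σ τ
      · exact hasDerivAt_const _ _
    have h3 : (∑ x ∈ b, P (Function.update (blk b (Lm u)) x sm)) = Sg b sm * pr b (Lm u) := by
      rw [Sg_mul_pr, sm_mul_Lm]
    have h4 : Pi b 1 (Sg b sm * pr b (Lm u)) = Sg b sm := by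
      have := (shift_Sm b).mul_Pi 0 (pr b (Lm u))
      rw [zero_add, Pi_zero_Lm, mul_one] at this
      exact this.symm
    rw [h3, h4] at h1
    have h5 : HasDerivAt (fun u : ℝ => (u : ℂ) * Sg b sm σ τ) (Sg b sm σ τ) u := by
      have := ((hasDerivAt_id u).ofReal_comp).mul_const (Sg b sm σ τ)
      simpa using this
    have := h1.sub h5
    rw [sub_self] at this
    exact this
  ext σ τ
  have h5 := is_const_of_deriv_eq_zero
    (f := fun u : ℝ => Pi b 1 (pr b (Lm u)) σ τ - (u : ℂ) * Sg b sm σ τ)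
    (fun u => (hd σ τ u).differentiableAt) (fun u => (hd σ τ u).deriv) u 0
  have h6 : Lm 0 = 1 := by
    ext i j; fin_cases i <;> fin_cases j <;> simp [Lm]
  have h7 : Pi b 1 (1 : Opr V) σ τ = 0 := by
    simp only [Pi, Matrix.of_apply]
    split_ifs with h
    · apply Matrix.one_apply_ne
      intro hc
      rw [hc, sub_self] at h
      exact absurd h (by norm_num)
    · rfl
  simp only [h6, pr_one, h7, Complex.ofReal_zero, zero_mul, sub_zero] at h5
  rw [Matrix.smul_apply, smul_eq_mul]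
  linear_combination h5

theorem pr_Dm_mulVec (b : Finset V) {d : ℝ} (hd : d ≠ 0) {r N : ℕ} (hN : N + 2 * r = b.card)
    {v : (V → Fin 2) → ℂ} (hv : Supp b r v) : pr b (Dm d) *ᵥ v = ((d ^ N : ℝ) : ℂ) • v := by
  have hd' : (d : ℂ) ≠ 0 := by exact_mod_cast hd
  ext σ
  rw [Matrix.mulVec, dotProduct, Finset.sum_eq_single σ]
  · rw [Pi.smul_apply, smul_eq_mul]
    by_cases h0 : v σ = 0
    · rw [h0]; simp
    congr 1
    have h1 := hv σ h0
    have h2 : pr b (Dm d) σ σ = ∏ y ∈ b, ((d : ℂ) * ((d : ℂ)⁻¹ ^ 2) ^ ((σ y : ℕ))) := by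
      rw [pr, P, Matrix.of_apply, ← Finset.prod_subset (Finset.subset_univ b)]
      · refine Finset.prod_congr rfl fun y hy => ?_
        rw [blk, if_pos hy]
        generalize σ y = i
        fin_cases i
        · simp [Dm]
        · simp [Dm]; field_simp
      · intro y _ hy
        rw [blk, if_neg hy, Matrix.one_apply_eq]
    have h3 : ∑ y ∈ b, (σ y : ℕ) = r := by
      have : ((∑ y ∈ b, (σ y : ℕ) : ℕ) : ℤ) = r := by rw [← h1, nb]; push_cast; rfl
      exact_mod_cast this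
    rw [h2, Finset.prod_mul_distrib, Finset.prod_const, Finset.prod_pow_eq_pow_sum, h3, ← hN]
    push_cast
    rw [pow_add, pow_mul (d : ℂ) 2 r, mul_assoc, ← mul_pow]
    have : (d : ℂ) ^ 2 * (d : ℂ)⁻¹ ^ 2 = 1 := by field_simp
    rw [this, one_pow, mul_one]
  · intro τ _ hτ
    have : pr b (Dm d) σ τ = 0 := by
      rw [pr, P, Matrix.of_apply]
      obtain ⟨y, hy⟩ := Function.ne_iff.mp hτ
      refine Finset.prod_eq_zero (Finset.mem_univ y) ?_
      rw [blk]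
      split_ifs
      · revert hy
        generalize σ y = i
        generalize τ y = j
        intro hy
        fin_cases i <;> fin_cases j <;> simp [Dm] at hy ⊢
      · exact Matrix.one_apply_ne (Ne.symm hy)
    rw [this, zero_mul]
  · intro h; exact absurd (Finset.mem_univ _) h

/-- `d(θ) = cosh(k/2) + sinh(k/2) cos θ`. -/
noncomputable def dd (k θ : ℝ) : ℝ := Real.cosh (k / 2) + Real.sinh (k / 2) * Real.cos θ

theorem dd_pos {k : ℝ} (hk : 0 ≤ k) (θ : ℝ) : 0 < dd k θ := by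
  have h1 : 0 ≤ Real.sinh (k / 2) := Real.sinh_nonneg_iff.2 (by linarith)
  have h2 : 0 < Real.cosh (k / 2) - Real.sinh (k / 2) := by
    rw [Real.cosh_sub_sinh]; exact Real.exp_pos _
  have h3 := Real.neg_one_le_cos θ
  rw [dd]
  nlinarith

theorem continuous_dd (k : ℝ) : Continuous (dd k) := by
  unfold dd; fun_prop

theorem E_mulVec {b : Finset V} {k : ℝ} (hk : 0 ≤ k) {r N : ℕ} (hN : N + 2 * r = b.card)
    {v : (V → Fin 2) → ℂ} (hv : Supp b r v) (h : Sg b sp *ᵥ v = 0) (q : ℤ) (θ : ℝ) :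
    E b k q θ *ᵥ v = ((dd k θ ^ N : ℝ) : ℂ) •
      (Pi b q (pr b (Lm (Real.sinh (k / 2) * Real.sin θ / dd k θ))) *ᵥ v) := by
  have hd := (dd_pos hk θ).ne'
  have h1 : Tw b k θ *ᵥ v = ((dd k θ ^ N : ℝ) : ℂ) •
      (pr b (Lm (Real.sinh (k / 2) * Real.sin θ / dd k θ)) *ᵥ v) := by
    rw [Tw, ← gauss k θ hd, ← pr_mul, ← pr_mul, ← Matrix.mulVec_mulVec, pr_Um_mulVec b h,
      ← Matrix.mulVec_mulVec]
    change _ *ᵥ (pr b (Dm (dd k θ)) *ᵥ v) = _
    rw [pr_Dm_mulVec b hd hN hv, Matrix.mulVec_smul]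
    rfl
  ext σ
  rw [E, Pi_mulVec hv, Pi.smul_apply, Pi_mulVec hv, h1, Pi.smul_apply]
  split_ifs <;> simp

theorem E_zero_mulVec {b : Finset V} {k : ℝ} (hk : 0 ≤ k) {r N : ℕ} (hN : N + 2 * r = b.card)
    {v : (V → Fin 2) → ℂ} (hv : Supp b r v) (h : Sg b sp *ᵥ v = 0) (θ : ℝ) :
    E b k 0 θ *ᵥ v = ((dd k θ ^ N : ℝ) : ℂ) • v := by
  rw [E_mulVec hk hN hv h, Pi_zero_Lm, Matrix.one_mulVec]

theorem E_one_mulVec {b : Finset V} {k : ℝ} (hk : 0 ≤ k) {r N : ℕ} (hN : N + 2 * r = b.card)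
    {v : (V → Fin 2) → ℂ} (hv : Supp b r v) (h : Sg b sp *ᵥ v = 0) (θ : ℝ) :
    E b k 1 θ *ᵥ v =
      ((dd k θ ^ N * (Real.sinh (k / 2) * Real.sin θ / dd k θ) : ℝ) : ℂ) • (Sg b sm *ᵥ v) := by
  rw [E_mulVec hk hN hv h, Pi_one_Lm, Matrix.smul_mulVec, smul_smul]
  push_cast
  rfl

theorem Av_mulVec (b : Finset V) (k : ℝ) (q : ℤ) {w : ℝ → ℝ} (hw : Continuous w)
    (v : (V → Fin 2) → ℂ) (σ : V → Fin 2) :
    (Av b k q w *ᵥ v) σ = ∫ θ in (0 : ℝ)..Real.pi, ((w θ : ℝ) : ℂ) * (E b k q θ *ᵥ v) σ := by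
  simp only [Av, Matrix.mulVec, dotProduct, Matrix.of_apply, Finset.mul_sum]
  rw [intervalIntegral.integral_finset_sum]
  · refine Finset.sum_congr rfl fun τ _ => ?_
    rw [← intervalIntegral.integral_mul_const]
    congr 1
    ext θ
    ring
  · intro τ _
    exact (((Complex.continuous_ofReal.comp hw).mul
      ((continuous_E b k q σ τ).mul continuous_const)).intervalIntegrable _ _)

theorem Av_mulVec_of {b : Finset V} {k : ℝ} {q : ℤ} {w : ℝ → ℝ} (hw : Continuous w)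
    {v u : (V → Fin 2) → ℂ} {f : ℝ → ℝ} (h : ∀ θ, E b k q θ *ᵥ v = ((f θ : ℝ) : ℂ) • u) :
    Av b k q w *ᵥ v = ((∫ θ in (0 : ℝ)..Real.pi, w θ * f θ : ℝ) : ℂ) • u := by
  ext σ
  rw [Av_mulVec b k q hw, Pi.smul_apply, smul_eq_mul, ← intervalIntegral.integral_ofReal,
    ← intervalIntegral.integral_mul_const]
  congr 1
  ext θ
  rw [h, Pi.smul_apply, smul_eq_mul]
  push_cast
  ring

/-- `a(N) = ½ ∫ sin θ d^N`. -/
noncomputable def aN (k : ℝ) (N : ℕ) : ℝ :=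
  ∫ θ in (0 : ℝ)..Real.pi, 1 / 2 * Real.sin θ ^ 1 * dd k θ ^ N
/-- `b₀(N) = ½ ∫ sin θ cos θ d^N`. -/
noncomputable def b0N (k : ℝ) (N : ℕ) : ℝ :=
  ∫ θ in (0 : ℝ)..Real.pi, 1 / 2 * Real.cos θ * Real.sin θ ^ 1 * dd k θ ^ N
/-- `b₁(N) = ½ ∫ sin³ θ sinh(k/2) d^{N-1}`. -/
noncomputable def b1N (k : ℝ) (N : ℕ) : ℝ :=
  ∫ θ in (0 : ℝ)..Real.pi, 1 / 2 * Real.sin θ ^ 2 *
    (dd k θ ^ N * (Real.sinh (k / 2) * Real.sin θ / dd k θ))

section HW

variable {b : Finset V} {k : ℝ} {r N : ℕ} {v : (V → Fin 2) → ℂ}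

theorem opA_hw (hk : 0 ≤ k) (hN : N + 2 * r = b.card) (hv : Supp b r v)
    (h : Sg b sp *ᵥ v = 0) : opA b k *ᵥ v = ((aN k N : ℝ) : ℂ) • v :=
  Av_mulVec_of (by fun_prop) (E_zero_mulVec hk hN hv h)

theorem opB_hw (hk : 0 ≤ k) (hN : N + 2 * r = b.card) (hv : Supp b r v)
    (h : Sg b sp *ᵥ v = 0) : opB b k *ᵥ v = ((b0N k N : ℝ) : ℂ) • v :=
  Av_mulVec_of (by fun_prop) (E_zero_mulVec hk hN hv h)

theorem opC_hw (hk : 0 ≤ k) (hN : N + 2 * r = b.card) (hv : Supp b r v)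
    (h : Sg b sp *ᵥ v = 0) : opC b k *ᵥ v = ((b1N k N : ℝ) : ℂ) • (Sg b sm *ᵥ v) :=
  Av_mulVec_of (by fun_prop) (E_one_mulVec hk hN hv h)

theorem opA_ladder (hk : 0 ≤ k) (hN : N + 2 * r = b.card) (hv : Supp b r v)
    (h : Sg b sp *ᵥ v = 0) (p : ℕ) :
    opA b k *ᵥ (Sg b sm ^ p *ᵥ v) = ((aN k N : ℝ) : ℂ) • (Sg b sm ^ p *ᵥ v) := by
  induction p with
  | zero => simpa using opA_hw hk hN hv h
  | succ p ih =>
    rw [pow_succ', ← Matrix.mulVec_mulVec, Matrix.mulVec_mulVec _ (opA b k), ← comm_Sm_A,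
      ← Matrix.mulVec_mulVec, ih, Matrix.mulVec_smul]

theorem opC_ladder (hk : 0 ≤ k) (hN : N + 2 * r = b.card) (hv : Supp b r v)
    (h : Sg b sp *ᵥ v = 0) (p : ℕ) :
    opC b k *ᵥ (Sg b sm ^ p *ᵥ v) = ((b1N k N : ℝ) : ℂ) • (Sg b sm ^ (p + 1) *ᵥ v) := by
  induction p with
  | zero => simpa using opC_hw hk hN hv h
  | succ p ih =>
    rw [pow_succ', ← Matrix.mulVec_mulVec, Matrix.mulVec_mulVec _ (opC b k), ← comm_Sm_C,
      ← Matrix.mulVec_mulVec, ih, Matrix.mulVec_smul, pow_succ' _ (p + 1),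
      ← Matrix.mulVec_mulVec]

theorem opB_ladder (hk : 0 ≤ k) (hN : N + 2 * r = b.card) (hv : Supp b r v)
    (h : Sg b sp *ᵥ v = 0) (p : ℕ) :
    opB b k *ᵥ (Sg b sm ^ p *ᵥ v) =
      ((b0N k N - p * b1N k N : ℝ) : ℂ) • (Sg b sm ^ p *ᵥ v) := by
  induction p with
  | zero => simpa using opB_hw hk hN hv h
  | succ p ih =>
    have h1 : opB b k *ᵥ (Sg b sm *ᵥ (Sg b sm ^ p *ᵥ v)) =
        Sg b sm *ᵥ (opB b k *ᵥ (Sg b sm ^ p *ᵥ v)) - opC b k *ᵥ (Sg b sm ^ p *ᵥ v) := by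
      rw [Matrix.mulVec_mulVec _ (opB b k), comm_Sm_B, Matrix.sub_mulVec, ← Matrix.mulVec_mulVec]
    have h2 : Sg b sm ^ (p + 1) *ᵥ v = Sg b sm *ᵥ (Sg b sm ^ p *ᵥ v) := by
      rw [pow_succ', Matrix.mulVec_mulVec]
    rw [h2, h1, ih, opC_ladder hk hN hv h, h2, Matrix.mulVec_smul, ← sub_smul]
    congr 1
    push_cast
    ring

end HW

end Vale.Agent.P361.LRO.TwJ
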