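import Vale.Agent.P361.LRO.Tw.J.Op

/-!
P361, block twist, part 8: the joint law of `(J, M)` of a block in a positive semidefinite state,
with all moments of the twist.
-/

namespace Vale.Agent.P361.LRO.TwJ

set_option linter.all false

open Matrix Finset
open scoped ComplexOrder

variable {V : Type} [Fintype V] [DecidableEq V]

/-! ### Commutation -/

theorem swap_comm_pr {b : Finset V} {x y : V} (hx : x ∈ b) (hy : y ∈ b) (G : M2) :
    cm (swapM x y) * pr b G = pr b G * cm (swapM x y) := by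
  have hs : ∀ z, Equiv.swap x y z ∈ b ↔ z ∈ b := by
    intro z
    by_cases hzx : z = x
    · subst hzx; simp [hx, hy]
    · by_cases hzy : z = y
      · subst hzy; simp [hx, hy]
      · rw [Equiv.swap_apply_of_ne_of_ne hzx hzy]
  have hinv : ∀ σ τ : V → Fin 2, σ = τ ∘ Equiv.swap x y ↔ τ = σ ∘ Equiv.swap x y := by
    intro σ τ
    constructor
    · intro h; rw [h]; ext1 z; simp
    · intro h; rw [h]; ext1 z; simp
  ext σ τ
  have h1 : (cm (swapM x y) * pr b G) σ τ = pr b G (σ ∘ Equiv.swap x y) τ := by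
    rw [Matrix.mul_apply, Finset.sum_eq_single (σ ∘ Equiv.swap x y)]
    · rw [cm, Matrix.of_apply, swapM, Matrix.of_apply, if_pos ((hinv _ _).2 rfl)]; simp
    · intro ρ _ hρ
      rw [cm, Matrix.of_apply, swapM, Matrix.of_apply, if_neg (fun h => hρ ((hinv _ _).1 h))]; simp
    · intro h; exact absurd (Finset.mem_univ _) h
  have h2 : (pr b G * cm (swapM x y)) σ τ = pr b G σ (τ ∘ Equiv.swap x y) := by
    rw [Matrix.mul_apply, Finset.sum_eq_single (τ ∘ Equiv.swap x y)]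
    · rw [cm, Matrix.of_apply, swapM, Matrix.of_apply, if_pos rfl]; simp
    · intro ρ _ hρ
      rw [cm, Matrix.of_apply, swapM, Matrix.of_apply, if_neg hρ]; simp
    · intro h; exact absurd (Finset.mem_univ _) h
  rw [h1, h2, pr, P, Matrix.of_apply, Matrix.of_apply]
  refine (Fintype.prod_equiv (Equiv.swap x y) _ _ fun z => ?_)
  simp only [Function.comp_apply, Equiv.swap_apply_self, blk, hs]

theorem Cas_comm_pr (b : Finset V) (G : M2) : Cas b * pr b G = pr b G * Cas b := by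
  have h := Cas_eq b
  have h1 : Cas b = (((b.card : ℝ) / 2 * ((b.card : ℝ) / 2 + 1) : ℝ) : ℂ) • (1 : Opr V) -
      ∑ x ∈ b, ∑ y ∈ b, cm (hM x y) := by
    rw [← h]; abel
  have h2 : (∑ x ∈ b, ∑ y ∈ b, cm (hM x y)) * pr b G =
      pr b G * ∑ x ∈ b, ∑ y ∈ b, cm (hM x y) := by
    rw [Finset.sum_mul, Finset.mul_sum]
    refine Finset.sum_congr rfl fun x hx => ?_
    rw [Finset.sum_mul, Finset.mul_sum]
    refine Finset.sum_congr rfl fun y hy => ?_
    rw [hM, cm_smul, cm_sub, cm_one, Matrix.smul_mul, Matrix.mul_smul, Matrix.sub_mul,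
      Matrix.mul_sub, swap_comm_pr hx hy, one_mul, mul_one]
  rw [h1, Matrix.sub_mul, Matrix.mul_sub, h2, Matrix.smul_mul, Matrix.mul_smul, one_mul, mul_one]

theorem Shift.mul {b : Finset V} {r s : ℤ} {X Y : Opr V} (hX : Shift b r X) (hY : Shift b s Y) :
    Shift b (r + s) (X * Y) := by
  intro σ τ h
  rw [Matrix.mul_apply] at h
  obtain ⟨ρ, _, hρ⟩ := Finset.exists_ne_zero_of_sum_ne_zero h
  have h1 := hX _ _ (left_ne_zero_of_mul hρ)
  have h2 := hY _ _ (right_ne_zero_of_mul hρ)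
  omega

theorem shift_Sz (b : Finset V) : Shift b 0 (Sg b sz) := by
  intro σ τ h
  rw [Sz_eq] at h
  by_cases hst : σ = τ
  · rw [hst, sub_self]
  · exact absurd (Matrix.diagonal_apply_ne _ hst) h

theorem shift_Cas (b : Finset V) : Shift b 0 (Cas b) := by
  have h1 : Shift b 0 (Sg b sm * Sg b sp) := by
    have := (shift_Sm b).mul (shift_Sp b)
    simpa using this
  have h2 : Shift b 0 (Sg b sz * Sg b sz) := by
    have := (shift_Sz b).mul (shift_Sz b)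
    simpa using this
  exact (h1.add h2).add (shift_Sz b)

theorem Cas_comm_E (b : Finset V) (k θ : ℝ) : Cas b * E b k 0 θ = E b k 0 θ * Cas b := by
  rw [E, (shift_Cas b).mul_Pi, (shift_Cas b).Pi_mul, Tw, Cas_comm_pr]

theorem Sz_comm_E (b : Finset V) (k θ : ℝ) : Sg b sz * E b k 0 θ = E b k 0 θ * Sg b sz := by
  have h := Pi_comm_Sz b 0 (Tw b k θ)
  rw [Pi_sub] at h
  have h1 := (shift_Sz b).mul_Pi 0 (Tw b k θ)
  have h2 := (shift_Sz b).Pi_mul 0 (Tw b k θ)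
  rw [add_zero] at h1 h2
  rw [E, h1, h2]
  have h3 : (-((0 : ℤ) : ℂ)) • Pi b 0 (Tw b k θ) = 0 := by simp
  rw [h3] at h
  exact sub_eq_zero.1 h

theorem comm_Av0 (b : Finset V) (k : ℝ) {w : ℝ → ℝ} (hw : Continuous w) {Y : Opr V}
    (h : ∀ θ, Y * E b k 0 θ = E b k 0 θ * Y) : Y * Av b k 0 w = Av b k 0 w * Y := by
  rw [mul_Av b k 0 hw, Av_mul b k 0 hw]
  simp only [h]

/-! ### Decomposition -/

theorem decomp (b : Finset V) (w : (V → Fin 2) → ℂ) :
    ∃ (s : Finset (ℂ × ℂ)) (f : ℂ × ℂ → ((V → Fin 2) → ℂ)), w = ∑ j ∈ s, f j ∧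
      (∀ j ∈ s, f j ≠ 0) ∧ (∀ j, Cas b *ᵥ f j = j.2 • f j ∧ Sg b sz *ᵥ f j = j.1 • f j) := by
  classical
  let A : EuclideanSpace ℂ (V → Fin 2) →ₗ[ℂ] EuclideanSpace ℂ (V → Fin 2) :=
    Matrix.toEuclideanLin (Cas b)
  let B : EuclideanSpace ℂ (V → Fin 2) →ₗ[ℂ] EuclideanSpace ℂ (V → Fin 2) :=
    Matrix.toEuclideanLin (Sg b sz)
  have hA : A.IsSymmetric := Matrix.isSymmetric_toEuclideanLin_iff.2 (Cas_herm b)
  have hB : B.IsSymmetric := Matrix.isSymmetric_toEuclideanLin_iff.2 (Sz_herm b)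
  have hAB : Commute A B := by
    apply LinearMap.ext
    intro u
    change Matrix.toEuclideanLin (Cas b) (Matrix.toEuclideanLin (Sg b sz) u) =
      Matrix.toEuclideanLin (Sg b sz) (Matrix.toEuclideanLin (Cas b) u)
    rw [Matrix.toLpLin_apply, Matrix.toLpLin_apply, Matrix.toLpLin_apply, Matrix.toLpLin_apply]
    simp only [Matrix.mulVec_mulVec]
    rw [Cas_Sz]
  have hint := LinearMap.IsSymmetric.directSum_isInternal_of_commute hA hB hAB
  have htop := hint.submodule_iSup_eq_top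
  have hmem : (WithLp.toLp 2 w : EuclideanSpace ℂ (V → Fin 2)) ∈
      ⨆ i : ℂ × ℂ, (Module.End.eigenspace A i.2 ⊓ Module.End.eigenspace B i.1) := by
    rw [htop]; trivial
  obtain ⟨f, hf, hfw⟩ := (Submodule.mem_iSup_iff_exists_finsupp _ _).1 hmem
  refine ⟨f.support, fun j => (f j).ofLp, ?_, ?_, ?_⟩
  · have := congrArg WithLp.ofLp hfw
    rw [Finsupp.sum, WithLp.ofLp_sum] at this
    exact this.symm
  · intro j hj h0
    apply Finsupp.mem_support_iff.1 hj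
    have := congrArg (WithLp.toLp 2) h0
    exact this
  · intro i
    have h1 := Module.End.mem_eigenspace_iff.1 (hf i).1
    have h2 := Module.End.mem_eigenspace_iff.1 (hf i).2
    exact ⟨congrArg WithLp.ofLp h1, congrArg WithLp.ofLp h2⟩

theorem orth (b : Finset V) {i j : ℂ × ℂ} (hij : i ≠ j) {u v : (V → Fin 2) → ℂ}
    (hu : Cas b *ᵥ u = i.2 • u ∧ Sg b sz *ᵥ u = i.1 • u)
    (hv : Cas b *ᵥ v = j.2 • v ∧ Sg b sz *ᵥ v = j.1 • v) : star u ⬝ᵥ v = 0 := by
  classical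
  let A : EuclideanSpace ℂ (V → Fin 2) →ₗ[ℂ] EuclideanSpace ℂ (V → Fin 2) :=
    Matrix.toEuclideanLin (Cas b)
  let B : EuclideanSpace ℂ (V → Fin 2) →ₗ[ℂ] EuclideanSpace ℂ (V → Fin 2) :=
    Matrix.toEuclideanLin (Sg b sz)
  have hA : A.IsSymmetric := Matrix.isSymmetric_toEuclideanLin_iff.2 (Cas_herm b)
  have hB : B.IsSymmetric := Matrix.isSymmetric_toEuclideanLin_iff.2 (Sz_herm b)
  have horth := LinearMap.IsSymmetric.orthogonalFamily_eigenspace_inf_eigenspace hA hB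
  have mem : ∀ (i : ℂ × ℂ) (u : (V → Fin 2) → ℂ),
      (Cas b *ᵥ u = i.2 • u ∧ Sg b sz *ᵥ u = i.1 • u) →
      (WithLp.toLp 2 u : EuclideanSpace ℂ (V → Fin 2)) ∈
        (Module.End.eigenspace A i.2 ⊓ Module.End.eigenspace B i.1) := by
    intro i u hu
    constructor
    · apply Module.End.mem_eigenspace_iff.2
      exact congrArg (WithLp.toLp 2) hu.1
    · apply Module.End.mem_eigenspace_iff.2
      exact congrArg (WithLp.toLp 2) hu.2
  have := horth hij ⟨_, mem i u hu⟩ ⟨_, mem j v hv⟩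
  simp only [Submodule.coe_subtypeₗᵢ, Submodule.coe_subtype] at this
  rw [EuclideanSpace.inner_eq_star_dotProduct, dotProduct_comm] at this
  exact this

theorem form_decomp (b : Finset V) {X : Opr V} (hC : Cas b * X = X * Cas b)
    (hZ : Sg b sz * X = X * Sg b sz) {s : Finset (ℂ × ℂ)} {f : ℂ × ℂ → ((V → Fin 2) → ℂ)}
    (hf : ∀ j, Cas b *ᵥ f j = j.2 • f j ∧ Sg b sz *ᵥ f j = j.1 • f j) :
    star (∑ j ∈ s, f j) ⬝ᵥ (X *ᵥ ∑ j ∈ s, f j) = ∑ j ∈ s, star (f j) ⬝ᵥ (X *ᵥ f j) := by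
  rw [Matrix.mulVec_sum, dotProduct_sum]
  refine Finset.sum_congr rfl fun j hj => ?_
  rw [star_sum, sum_dotProduct, Finset.sum_eq_single j]
  · intro i _ hij
    refine orth b hij (hf i) ⟨?_, ?_⟩
    · rw [Matrix.mulVec_mulVec, hC, ← Matrix.mulVec_mulVec, (hf j).1, Matrix.mulVec_smul]
    · rw [Matrix.mulVec_mulVec, hZ, ← Matrix.mulVec_mulVec, (hf j).2, Matrix.mulVec_smul]
  · intro h; exact absurd hj h

theorem trace_rows (R X : Opr V) :
    Matrix.trace (Rᴴ * R * X) =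
      ∑ i, star (fun j => star (R i j)) ⬝ᵥ (X *ᵥ fun j => star (R i j)) := by
  have h1 : Matrix.trace (Rᴴ * R * X) = Matrix.trace (R * X * Rᴴ) := by
    rw [mul_assoc, Matrix.trace_mul_comm, mul_assoc]
  rw [h1, Matrix.trace]
  refine Finset.sum_congr rfl fun i _ => ?_
  simp only [Matrix.diag, Matrix.mul_apply, dotProduct, Matrix.mulVec,
    Matrix.conjTranspose_apply, Pi.star_apply, star_star, Finset.sum_mul, Finset.mul_sum]
  rw [Finset.sum_comm]
  refine Finset.sum_congr rfl fun j _ => Finset.sum_congr rfl fun l _ => ?_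
  ring

/-- The finite family of joint eigenvectors of a positive semidefinite matrix. -/
theorem law0 (b : Finset V) (R : Opr V) :
    ∃ (ι : Type) (_ : Fintype ι) (u : ι → ((V → Fin 2) → ℂ)),
      (∀ i, u i ≠ 0 ∧ ∃ lam mu : ℂ, Cas b *ᵥ u i = lam • u i ∧ Sg b sz *ᵥ u i = mu • u i) ∧
      ∀ X : Opr V, Cas b * X = X * Cas b → Sg b sz * X = X * Sg b sz →
        Matrix.trace (Rᴴ * R * X) = ∑ i, star (u i) ⬝ᵥ (X *ᵥ u i) := by
  classical
  choose s f h1 h2 h3 using fun i : V → Fin 2 => decomp b (fun j => star (R i j))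
  refine ⟨Σ i : V → Fin 2, {j // j ∈ s i}, inferInstance, fun i => f i.1 i.2.1, ?_, ?_⟩
  · rintro ⟨i, j, hj⟩
    exact ⟨h2 i j hj, j.2, j.1, (h3 i j).1, (h3 i j).2⟩
  · intro X hC hZ
    rw [trace_rows, Fintype.sum_sigma]
    refine Finset.sum_congr rfl fun i _ => ?_
    conv_lhs => rw [h1 i]
    rw [form_decomp b hC hZ (h3 i)]
    exact (Finset.sum_coe_sort (s i) fun j => star (f i j) ⬝ᵥ (X *ᵥ f i j)).symm

/-- The quantum numbers do not depend on `k`. -/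
theorem joint_all {b : Finset V} {w : (V → Fin 2) → ℂ} (hw : w ≠ 0) {lam mu : ℂ}
    (h1 : Cas b *ᵥ w = lam • w) (h2 : Sg b sz *ᵥ w = mu • w) :
    ∃ N r p : ℕ, N + 2 * r = b.card ∧ p ≤ N ∧
      Cas b *ᵥ w = (((N : ℝ) / 2 * ((N : ℝ) / 2 + 1) : ℝ) : ℂ) • w ∧
      Sg b sz *ᵥ w = (((N : ℝ) / 2 - p : ℝ) : ℂ) • w ∧
      ∀ k : ℝ, 0 ≤ k → opA b k *ᵥ w = ((aN k N : ℝ) : ℂ) • w ∧
        opB b k *ᵥ w = ((b0N k N - p * b1N k N : ℝ) : ℂ) • w := by
  obtain ⟨N, r, p, hN, hp, hC, hS, -, -⟩ := joint (k := 0) le_rfl hw h1 h2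
  refine ⟨N, r, p, hN, hp, hC, hS, fun k hk => ?_⟩
  obtain ⟨N', r', p', hN', hp', hC', hS', hA', hB'⟩ := joint hk hw h1 h2
  obtain ⟨σ, hσ⟩ := Function.ne_iff.1 hw
  have e1 : ((N : ℝ) / 2 * ((N : ℝ) / 2 + 1)) = ((N' : ℝ) / 2 * ((N' : ℝ) / 2 + 1)) := by
    have := congrFun (hC.symm.trans hC') σ
    rw [Pi.smul_apply, Pi.smul_apply, smul_eq_mul, smul_eq_mul] at this
    exact_mod_cast mul_right_cancel₀ hσ this
  have e2 : ((N : ℝ) / 2 - p) = ((N' : ℝ) / 2 - p') := by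
    have := congrFun (hS.symm.trans hS') σ
    rw [Pi.smul_apply, Pi.smul_apply, smul_eq_mul, smul_eq_mul] at this
    exact_mod_cast mul_right_cancel₀ hσ this
  have e3 : (N : ℝ) = N' := by
    have h0 : (0 : ℝ) ≤ N := Nat.cast_nonneg N
    have h0' : (0 : ℝ) ≤ N' := Nat.cast_nonneg N'
    have : ((N : ℝ) - N') * ((N : ℝ) + N' + 2) = 0 := by nlinarith
    rcases mul_eq_zero.1 this with h | h
    · linarith
    · linarith
  have e4 : N = N' := by exact_mod_cast e3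
  have e5 : p = p' := by
    have : (p : ℝ) = p' := by rw [e3] at e2; linarith
    exact_mod_cast this
  subst e4; subst e5
  exact ⟨hA', hB'⟩

/-! ### Positivity and moments -/

theorem gm_half (k θ : ℝ) : gm (k / 2) θ * gm (k / 2) θ = gm k θ := by
  have h1 : Real.cosh (k / 2) = Real.cosh (k / 2 / 2) ^ 2 + Real.sinh (k / 2 / 2) ^ 2 := by
    rw [← Real.cosh_two_mul]; congr 1; ring
  have h2 : Real.sinh (k / 2) = 2 * Real.sinh (k / 2 / 2) * Real.cosh (k / 2 / 2) := by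
    rw [← Real.sinh_two_mul]; congr 1; ring
  have h3 := Real.sin_sq_add_cos_sq θ
  unfold gm
  rw [h1, h2]
  set c := Real.cosh (k / 2 / 2)
  set s := Real.sinh (k / 2 / 2)
  set x := Real.cos θ
  set y := Real.sin θ
  rw [Matrix.mul_fin_two]
  congr 1
  have a1 : ((c + s * x : ℝ) : ℂ) * ((c + s * x : ℝ) : ℂ) + ((s * y : ℝ) : ℂ) * ((s * y : ℝ) : ℂ) =
      ((c ^ 2 + s ^ 2 + 2 * s * c * x : ℝ) : ℂ) := by
    rw [← Complex.ofReal_mul, ← Complex.ofReal_mul, ← Complex.ofReal_add]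
    congr 1
    linear_combination s ^ 2 * h3
  have a2 : ((c + s * x : ℝ) : ℂ) * ((s * y : ℝ) : ℂ) + ((s * y : ℝ) : ℂ) * ((c - s * x : ℝ) : ℂ) =
      ((2 * s * c * y : ℝ) : ℂ) := by
    rw [← Complex.ofReal_mul, ← Complex.ofReal_mul, ← Complex.ofReal_add]
    congr 1
    ring
  have a3 : ((s * y : ℝ) : ℂ) * ((c + s * x : ℝ) : ℂ) + ((c - s * x : ℝ) : ℂ) * ((s * y : ℝ) : ℂ) =
      ((2 * s * c * y : ℝ) : ℂ) := by
    rw [← Complex.ofReal_mul, ← Complex.ofReal_mul, ← Complex.ofReal_add]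
    congr 1
    ring
  have a4 : ((s * y : ℝ) : ℂ) * ((s * y : ℝ) : ℂ) + ((c - s * x : ℝ) : ℂ) * ((c - s * x : ℝ) : ℂ) =
      ((c ^ 2 + s ^ 2 - 2 * s * c * x : ℝ) : ℂ) := by
    rw [← Complex.ofReal_mul, ← Complex.ofReal_mul, ← Complex.ofReal_add]
    congr 1
    linear_combination s ^ 2 * h3
  rw [a1, a2, a3, a4]

theorem pr_conj (b : Finset V) (G : M2) : (pr b G)ᴴ = pr b Gᴴ := by
  ext σ τ
  rw [Matrix.conjTranspose_apply, pr, P, Matrix.of_apply, pr, P, Matrix.of_apply, star_prod]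
  refine Finset.prod_congr rfl fun y _ => ?_
  by_cases hy : y ∈ b
  · rw [blk, blk, if_pos hy, if_pos hy, Matrix.conjTranspose_apply]
  · rw [blk, blk, if_neg hy, if_neg hy, Matrix.one_apply, Matrix.one_apply]
    by_cases h : σ y = τ y
    · rw [if_pos h, if_pos h.symm, star_one]
    · rw [if_neg h, if_neg (Ne.symm h), star_zero]

theorem gm_conj (k θ : ℝ) : (gm k θ)ᴴ = gm k θ := by
  ext i j
  fin_cases i <;> fin_cases j <;>
    simp only [gm, Matrix.conjTranspose_apply, Matrix.of_apply, Matrix.cons_val', Fin.zero_eta,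
      Matrix.cons_val_zero, Matrix.cons_val_fin_one, Fin.mk_one, Matrix.cons_val_one,
      Complex.star_def, Complex.conj_ofReal]

theorem Tw_sq (b : Finset V) (k θ : ℝ) :
    Tw b k θ = (Tw b (k / 2) θ)ᴴ * Tw b (k / 2) θ := by
  rw [Tw, Tw, pr_conj, gm_conj, pr_mul, gm_half]

theorem Tw_form_nonneg (b : Finset V) (k θ : ℝ) (w : (V → Fin 2) → ℂ) :
    0 ≤ (star w ⬝ᵥ (Tw b k θ *ᵥ w)).re := by
  rw [Tw_sq, ← Matrix.mulVec_mulVec, form_conj]
  exact re_star_dot_nonneg _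

theorem E_form {b : Finset V} {w : (V → Fin 2) → ℂ} {mu : ℂ}
    (h2 : Sg b sz *ᵥ w = mu • w) (k θ : ℝ) :
    star w ⬝ᵥ (E b k 0 θ *ᵥ w) = star w ⬝ᵥ (Tw b k θ *ᵥ w) := by
  by_cases hw : w = 0
  · subst hw; simp
  obtain ⟨σ0, hσ0⟩ := Function.ne_iff.1 hw
  have hmu : ∀ σ, w σ ≠ 0 → (b.card : ℂ) / 2 - (nb b σ : ℂ) = mu := by
    intro σ hσ
    have := congrFun h2 σ
    rw [Sz_eq, Matrix.mulVec_diagonal, Pi.smul_apply, smul_eq_mul] at this
    exact mul_right_cancel₀ hσ this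
  have hwm : Supp b (nb b σ0) w := by
    intro σ hσ
    have h3 := hmu σ hσ
    have h4 := hmu σ0 hσ0
    have h5 : ((nb b σ : ℤ) : ℂ) = ((nb b σ0 : ℤ) : ℂ) := by
      linear_combination h4 - h3
    exact_mod_cast h5
  simp only [dotProduct]
  refine Finset.sum_congr rfl fun σ _ => ?_
  by_cases h0 : w σ = 0
  · simp [h0]
  · rw [E, Pi_mulVec hwm, if_pos (by rw [hwm σ h0, add_zero])]

theorem form_Av (b : Finset V) (k : ℝ) {w : ℝ → ℝ} (hw : Continuous w)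
    (v : (V → Fin 2) → ℂ) :
    (star v ⬝ᵥ (Av b k 0 w *ᵥ v)).re =
      ∫ θ in (0 : ℝ)..Real.pi, w θ * (star v ⬝ᵥ (E b k 0 θ *ᵥ v)).re := by
  have hc : Continuous fun θ => star v ⬝ᵥ (E b k 0 θ *ᵥ v) := by
    simp only [dotProduct, Matrix.mulVec]
    exact continuous_finset_sum _ fun σ _ => continuous_const.mul
      (continuous_finset_sum _ fun τ _ => (continuous_E b k 0 σ τ).mul continuous_const)
  have h1 : star v ⬝ᵥ (Av b k 0 w *ᵥ v) =
      ∫ θ in (0 : ℝ)..Real.pi, ((w θ : ℝ) : ℂ) * (star v ⬝ᵥ (E b k 0 θ *ᵥ v)) := by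
    simp only [dotProduct, Av_mulVec b k 0 hw, Finset.mul_sum]
    rw [intervalIntegral.integral_finset_sum]
    · refine Finset.sum_congr rfl fun σ _ => ?_
      rw [← intervalIntegral.integral_const_mul]
      congr 1
      ext θ
      ring
    · intro σ _
      refine (Continuous.mul (Complex.continuous_ofReal.comp hw) ?_).intervalIntegrable _ _
      refine continuous_const.mul ?_
      simp only [Matrix.mulVec, dotProduct]
      exact continuous_finset_sum _ fun τ _ => (continuous_E b k 0 σ τ).mul continuous_const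
  rw [h1]
  have h2 := intervalIntegral.intervalIntegral_re (a := (0 : ℝ)) (b := Real.pi)
    (f := fun θ => ((w θ : ℝ) : ℂ) * (star v ⬝ᵥ (E b k 0 θ *ᵥ v))) (μ := MeasureTheory.volume)
    (((Complex.continuous_ofReal.comp hw).mul hc).intervalIntegrable _ _)
  have h3 : (∫ θ in (0 : ℝ)..Real.pi, ((w θ : ℝ) : ℂ) * (star v ⬝ᵥ (E b k 0 θ *ᵥ v))).re =
      ∫ θ in (0 : ℝ)..Real.pi, (((w θ : ℝ) : ℂ) * (star v ⬝ᵥ (E b k 0 θ *ᵥ v))).re := h2.symm
  rw [h3]
  congr 1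
  ext θ
  rw [Complex.re_ofReal_mul]

end Vale.Agent.P361.LRO.TwJ
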