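import Vale.Agent.P361.LRO.Tw.J.Law

/-!
P361, block twist, part 9: the joint law of `(J, M)` of a block, all moments of the twist.
-/

namespace Vale.Agent.P361.LRO.TwJ

set_option linter.all false

open Matrix Finset
open scoped ComplexOrder

variable {V : Type} [Fintype V] [DecidableEq V]

/-- Tangent line inequality. -/
theorem tangent {x y : ℝ} (hx : 0 ≤ x) (hy : 0 < y) (m : ℕ) :
    y ^ m + m * y ^ m * (x / y - 1) ≤ x ^ m := by
  have h1 : -2 ≤ x / y - 1 := by
    have : 0 ≤ x / y := by positivity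
    linarith
  have h2 := one_add_mul_le_pow h1 m
  have h3 : x ^ m = y ^ m * (1 + (x / y - 1)) ^ m := by
    rw [← mul_pow]
    congr 1
    field_simp
    ring
  rw [h3]
  have h4 := mul_le_mul_of_nonneg_left h2 (by positivity : 0 ≤ y ^ m)
  calc y ^ m + m * y ^ m * (x / y - 1) = y ^ m * (1 + m * (x / y - 1)) := by ring
    _ ≤ _ := h4

/-- `(p/N) a ≤ a - (b₀ - p b₁)`. -/
theorem mean_ge {k : ℝ} (hk : 0 ≤ k) {N p : ℕ} (hp : p ≤ N) :
    (p : ℝ) / N * aN k N ≤ aN k N - (b0N k N - p * b1N k N) := by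
  have ha := aN_pos hk N
  have h2 := b1N_nonneg hk N
  have h3 := b0N_le hk N
  have h4 := N_b1 hk N
  set a := aN k N
  set β0 := b0N k N
  set β1 := b1N k N
  have hN0 : (0 : ℝ) ≤ N := Nat.cast_nonneg N
  have hp0 : (0 : ℝ) ≤ p := Nat.cast_nonneg p
  have hpN : (p : ℝ) ≤ N := by exact_mod_cast hp
  rcases Nat.eq_zero_or_pos N with hN1 | hN1
  · have : p = 0 := by omega
    rw [this]
    simp
    exact h3
  have hN1' : (0 : ℝ) < N := by exact_mod_cast hN1
  rw [div_mul_eq_mul_div, div_le_iff₀ hN1']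
  have e2 : (a - (β0 - p * β1)) * N = N * a - ((N : ℝ) - 2 * p) * β0 := by
    linear_combination (p : ℝ) * h4
  rw [e2]
  rcases le_total (2 * (p : ℝ)) N with h | h
  · have : ((N : ℝ) - 2 * p) * β0 ≤ ((N : ℝ) - 2 * p) * a :=
      mul_le_mul_of_nonneg_left h3 (by linarith)
    nlinarith
  · have hb0 : 0 ≤ β0 := by nlinarith
    nlinarith

theorem moment {b : Finset V} {w : (V → Fin 2) → ℂ} {mu : ℂ}
    (h2 : Sg b sz *ᵥ w = mu • w) {k : ℝ} (hk : 0 ≤ k) {N p : ℕ} (hp : p ≤ N)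
    (hA : opA b k *ᵥ w = ((aN k N : ℝ) : ℂ) • w)
    (hB : opB b k *ᵥ w = ((b0N k N - p * b1N k N : ℝ) : ℂ) • w) (m : ℕ) :
    (star w ⬝ᵥ w).re * (aN k N * ((p : ℝ) / N) ^ m) ≤
      ∫ θ in (0 : ℝ)..Real.pi, 1 / 2 * Real.sin θ * (1 - Real.cos θ) ^ m *
        (star w ⬝ᵥ (E b k 0 θ *ᵥ w)).re := by
  set f : ℝ → ℝ := fun θ => (star w ⬝ᵥ (E b k 0 θ *ᵥ w)).re with hf
  set S := (star w ⬝ᵥ w).re with hS
  have hS0 : 0 ≤ S := re_star_dot_nonneg w
  have hf0 : ∀ θ, 0 ≤ f θ := by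
    intro θ
    rw [hf]
    simp only
    rw [E_form h2]
    exact Tw_form_nonneg b k θ w
  have hfc : Continuous f := by
    refine Complex.continuous_re.comp ?_
    simp only [dotProduct, Matrix.mulVec]
    exact continuous_finset_sum _ fun σ _ => continuous_const.mul
      (continuous_finset_sum _ fun τ _ => (continuous_E b k 0 σ τ).mul continuous_const)
  have ha := aN_pos hk N
  have IA : ∫ θ in (0 : ℝ)..Real.pi, 1 / 2 * Real.sin θ ^ 1 * f θ = aN k N * S := by
    have h := form_Av b k (w := fun θ => 1 / 2 * Real.sin θ ^ 1) (by fun_prop) w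
    rw [← h]
    change (star w ⬝ᵥ (opA b k *ᵥ w)).re = _
    rw [hA, dotProduct_smul, smul_eq_mul, Complex.re_ofReal_mul]
  have IB : ∫ θ in (0 : ℝ)..Real.pi, 1 / 2 * Real.cos θ * Real.sin θ ^ 1 * f θ =
      (b0N k N - p * b1N k N) * S := by
    have h := form_Av b k (w := fun θ => 1 / 2 * Real.cos θ * Real.sin θ ^ 1) (by fun_prop) w
    rw [← h]
    change (star w ⬝ᵥ (opB b k *ᵥ w)).re = _
    rw [hB, dotProduct_smul, smul_eq_mul, Complex.re_ofReal_mul]
  have hnn : 0 ≤ ∫ θ in (0 : ℝ)..Real.pi, 1 / 2 * Real.sin θ * (1 - Real.cos θ) ^ m * f θ := by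
    refine intervalIntegral.integral_nonneg Real.pi_pos.le fun θ hθ => ?_
    have h1 := Real.sin_nonneg_of_nonneg_of_le_pi hθ.1 hθ.2
    have h3 := Real.cos_le_one θ
    have h4 : 0 ≤ 1 - Real.cos θ := by linarith
    have := hf0 θ
    positivity
  rcases Nat.eq_zero_or_pos m with hm | hm
  · subst hm
    have : (∫ θ in (0 : ℝ)..Real.pi, 1 / 2 * Real.sin θ * (1 - Real.cos θ) ^ 0 * f θ) =
        aN k N * S := by
      rw [← IA]; congr 1; ext θ; ring
    rw [this]
    simp only [pow_zero, mul_one]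
    exact le_of_eq (mul_comm _ _)
  rcases Nat.eq_zero_or_pos p with hp1 | hp1
  · subst hp1
    have : ((0 : ℕ) : ℝ) / N = 0 := by simp
    rw [this, zero_pow hm.ne', mul_zero, mul_zero]
    exact hnn
  have hN1 : 0 < N := lt_of_lt_of_le hp1 hp
  have hN1' : (0 : ℝ) < N := by exact_mod_cast hN1
  have hp1' : (0 : ℝ) < p := by exact_mod_cast hp1
  have hmean := mean_ge hk hp
  set a := aN k N
  set y := (a - (b0N k N - p * b1N k N)) / a with hy
  have hyp : (p : ℝ) / N ≤ y := by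
    rw [hy, le_div_iff₀ ha]; exact hmean
  have hy0 : 0 < y := lt_of_lt_of_le (by positivity) hyp
  -- integrate the tangent inequality
  have h1 : (∫ θ in (0 : ℝ)..Real.pi, (y ^ m - m * y ^ m) * (1 / 2 * Real.sin θ ^ 1 * f θ) +
        m * y ^ m / y * (1 / 2 * Real.sin θ ^ 1 * f θ - 1 / 2 * Real.cos θ * Real.sin θ ^ 1 * f θ))
      ≤ ∫ θ in (0 : ℝ)..Real.pi, 1 / 2 * Real.sin θ * (1 - Real.cos θ) ^ m * f θ := by
    refine intervalIntegral.integral_mono_on Real.pi_pos.le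
      ((by fun_prop : Continuous _).intervalIntegrable _ _)
      ((by fun_prop : Continuous _).intervalIntegrable _ _) fun θ hθ => ?_
    have h1 := Real.sin_nonneg_of_nonneg_of_le_pi hθ.1 hθ.2
    have h3 := Real.cos_le_one θ
    have h4 : 0 ≤ 1 - Real.cos θ := by linarith
    have h5 := tangent h4 hy0 m
    have h6 : 0 ≤ 1 / 2 * Real.sin θ * f θ := by
      have := hf0 θ
      positivity
    have h7 := mul_le_mul_of_nonneg_left h5 h6
    calc _ = 1 / 2 * Real.sin θ * f θ * (y ^ m + m * y ^ m * ((1 - Real.cos θ) / y - 1)) := by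
          ring
      _ ≤ _ := h7
      _ = _ := by ring
  rw [intervalIntegral.integral_add ((by fun_prop : Continuous _).intervalIntegrable _ _)
    ((by fun_prop : Continuous _).intervalIntegrable _ _), intervalIntegral.integral_const_mul,
    intervalIntegral.integral_const_mul, intervalIntegral.integral_sub
      ((by fun_prop : Continuous _).intervalIntegrable _ _)
      ((by fun_prop : Continuous _).intervalIntegrable _ _), IA, IB] at h1
  have h2' : (y ^ m - m * y ^ m) * (a * S) +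
      m * y ^ m / y * (a * S - (b0N k N - p * b1N k N) * S) = y ^ m * (a * S) := by
    have e : a * S - (b0N k N - p * b1N k N) * S = y * (a * S) := by
      rw [hy]; field_simp
    rw [e]
    field_simp
    ring
  rw [h2'] at h1
  have h3 : ((p : ℝ) / N) ^ m ≤ y ^ m := pow_le_pow_left₀ (by positivity) hyp m
  calc S * (a * ((p : ℝ) / N) ^ m) = (a * S) * ((p : ℝ) / N) ^ m := by ring
    _ ≤ (a * S) * y ^ m := mul_le_mul_of_nonneg_left h3 (by positivity)
    _ = y ^ m * (a * S) := by ring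
    _ ≤ _ := h1

/-- **The joint law of `(J, M)` of a block**: `J = N / 2`, `M = N / 2 - p`, `|b| = N + 2 r`; the
same law for all strengths `k` and all moments `m` of the twist. -/
theorem joint_law {W : Matrix (V → Fin 2) (V → Fin 2) ℝ} (hW : W.PosSemidef)
    (hsym : ∀ σ τ, W σ τ ≠ 0 → ∑ x, ((σ x : ℕ) : ℤ) = ∑ x, ((τ x : ℕ) : ℤ))
    (b : Finset V) :
    ∃ (ι : Type) (_ : Fintype ι) (μ : ι → ℝ) (N r p : ι → ℕ),
      (∀ i, 0 ≤ μ i) ∧ (∀ i, N i + 2 * r i = b.card ∧ p i ≤ N i) ∧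
      ∑ i, μ i = Matrix.trace W ∧
      ∑ i, μ i * ((r i : ℝ) + p i) = ∑ x ∈ b, Matrix.trace (W * ((1 / 2 : ℝ) • (1 - szM x))) ∧
      ∑ i, μ i * ((r i : ℝ) * ((b.card : ℝ) - r i + 1)) =
        ∑ x ∈ b, ∑ y ∈ b, Matrix.trace (W * hM x y) ∧
      (∀ k : ℝ, 0 ≤ k → ∑ i, μ i * aN k (N i) =
        Real.cosh (k / 2) ^ b.card / 2 * ∫ φ in (0 : ℝ)..Real.pi,
          Real.sin φ * Matrix.trace (W * rotT b (Real.tanh (k / 2)) φ)) ∧
      (∀ k : ℝ, 0 ≤ k → ∀ m : ℕ, ∑ i, μ i * (aN k (N i) * ((p i : ℝ) / N i) ^ m) ≤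
        Real.cosh (k / 2) ^ b.card / 2 * ∫ φ in (0 : ℝ)..Real.pi,
          Real.sin φ * (1 - Real.cos φ) ^ m *
            Matrix.trace (W * rotT b (Real.tanh (k / 2)) φ)) := by
  obtain ⟨R, hR⟩ := cm_factor hW
  obtain ⟨ι, hι, u, hu, hlaw⟩ := law0 b R
  rw [← hR] at hlaw
  choose N r p hN hp hC hS hK using fun i => joint_all (hu i).1
    (hu i).2.choose_spec.choose_spec.1 (hu i).2.choose_spec.choose_spec.2
  have hsym' : ∀ σ τ, cm W σ τ ≠ 0 → nb univ σ = nb univ τ := by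
    intro σ τ h1
    apply hsym
    intro h2
    apply h1
    rw [cm, Matrix.of_apply, h2]; simp
  -- traces of operators acting by real scalars
  have hscal : ∀ (X : Opr V) (y : ι → ℝ), Cas b * X = X * Cas b → Sg b sz * X = X * Sg b sz →
      (∀ i, X *ᵥ u i = ((y i : ℝ) : ℂ) • u i) →
      (Matrix.trace (cm W * X)).re = ∑ i, (star (u i) ⬝ᵥ u i).re * y i := by
    intro X y h1 h2 h3
    rw [hlaw X h1 h2, Complex.re_sum]
    refine Finset.sum_congr rfl fun i _ => ?_
    rw [h3, dotProduct_smul, smul_eq_mul, Complex.re_ofReal_mul, mul_comm]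
  have hT : ∀ k φ, Matrix.trace (cm W * Tw b k φ) =
      ((Real.cosh (k / 2) ^ b.card * Matrix.trace (W * rotT b (Real.tanh (k / 2)) φ) : ℝ) : ℂ) := by
    intro k φ
    rw [Tw_eq, Matrix.mul_smul, Matrix.trace_smul, ← cm_mul, cm_trace, smul_eq_mul,
      ← Complex.ofReal_mul]
  have hAv : ∀ (k : ℝ) (w : ℝ → ℝ), Continuous w → (Matrix.trace (cm W * Av b k 0 w)).re =
      Real.cosh (k / 2) ^ b.card * ∫ φ in (0 : ℝ)..Real.pi,
        w φ * Matrix.trace (W * rotT b (Real.tanh (k / 2)) φ) := by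
    intro k w hw
    rw [trace_Av b k hw hsym']
    have : (∫ θ in (0 : ℝ)..Real.pi, ((w θ : ℝ) : ℂ) * Matrix.trace (cm W * Tw b k θ)) =
        ((Real.cosh (k / 2) ^ b.card * ∫ φ in (0 : ℝ)..Real.pi,
          w φ * Matrix.trace (W * rotT b (Real.tanh (k / 2)) φ) : ℝ) : ℂ) := by
      rw [← intervalIntegral.integral_const_mul, ← intervalIntegral.integral_ofReal]
      congr 1
      ext θ
      rw [hT]
      push_cast
      ring
    rw [this, Complex.ofReal_re]
  refine ⟨ι, hι, fun i => (star (u i) ⬝ᵥ u i).re, N, r, p, fun i => re_star_dot_nonneg _,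
    fun i => ⟨hN i, hp i⟩, ?_, ?_, ?_, ?_, ?_⟩
  · have h := hscal 1 (fun _ => 1) (by rw [mul_one, one_mul]) (by rw [mul_one, one_mul])
      (fun i => by rw [Matrix.one_mulVec]; simp)
    rw [mul_one, cm_trace, Complex.ofReal_re] at h
    rw [h]
    simp
  · have h := hscal ((((b.card : ℝ) / 2 : ℝ) : ℂ) • (1 : Opr V) - Sg b sz)
      (fun i => (r i : ℝ) + p i)
      (by rw [Matrix.mul_sub, Matrix.sub_mul, Cas_Sz, Matrix.mul_smul, Matrix.smul_mul, mul_one,
        one_mul])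
      (by rw [Matrix.mul_sub, Matrix.sub_mul, Matrix.mul_smul, Matrix.smul_mul, mul_one, one_mul])
      (fun i => by
        rw [Matrix.sub_mulVec, Matrix.smul_mulVec, Matrix.one_mulVec, hS, ← sub_smul,
          ← Complex.ofReal_sub]
        congr 2
        rw [← hN i]
        push_cast
        ring)
    rw [← h, Sz_cm]
    simp only [Matrix.mul_sum, Matrix.trace_sum, ← cm_mul, cm_trace, Complex.re_sum,
      Complex.ofReal_re]
  · have h := hscal ((((b.card : ℝ) / 2 * ((b.card : ℝ) / 2 + 1) : ℝ) : ℂ) • (1 : Opr V) - Cas b)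
      (fun i => (r i : ℝ) * ((b.card : ℝ) - r i + 1))
      (by rw [Matrix.mul_sub, Matrix.sub_mul, Matrix.mul_smul, Matrix.smul_mul, mul_one, one_mul])
      (by rw [Matrix.mul_sub, Matrix.sub_mul, Cas_Sz, Matrix.mul_smul, Matrix.smul_mul, mul_one,
        one_mul])
      (fun i => by
        rw [Matrix.sub_mulVec, Matrix.smul_mulVec, Matrix.one_mulVec, hC, ← sub_smul,
          ← Complex.ofReal_sub]
        congr 2
        rw [← hN i]
        push_cast
        ring)
    rw [← h, Cas_eq]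
    simp only [Matrix.mul_sum, Matrix.trace_sum, ← cm_mul, cm_trace, Complex.re_sum,
      Complex.ofReal_re]
  · intro k hk
    have h := hscal (opA b k) (fun i => aN k (N i))
      (comm_Av0 b k (by fun_prop) fun θ => Cas_comm_E b k θ)
      (comm_Av0 b k (by fun_prop) fun θ => Sz_comm_E b k θ)
      (fun i => (hK i k hk).1)
    rw [← h, opA, hAv k _ (by fun_prop)]
    rw [div_mul_eq_mul_div, mul_div_assoc, ← intervalIntegral.integral_div]
    congr 1
    congr 1
    ext φ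
    ring
  · intro k hk m
    have hw : Continuous fun θ : ℝ => 1 / 2 * Real.sin θ * (1 - Real.cos θ) ^ m := by fun_prop
    have h1 : (Matrix.trace (cm W * Av b k 0 fun θ =>
        1 / 2 * Real.sin θ * (1 - Real.cos θ) ^ m)).re =
        ∑ i, ∫ θ in (0 : ℝ)..Real.pi, 1 / 2 * Real.sin θ * (1 - Real.cos θ) ^ m *
          (star (u i) ⬝ᵥ (E b k 0 θ *ᵥ u i)).re := by
      rw [hlaw _ (comm_Av0 b k hw fun θ => Cas_comm_E b k θ)
        (comm_Av0 b k hw fun θ => Sz_comm_E b k θ), Complex.re_sum]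
      exact Finset.sum_congr rfl fun i _ => form_Av b k hw (u i)
    have h2 : ∑ i, (star (u i) ⬝ᵥ u i).re * (aN k (N i) * ((p i : ℝ) / N i) ^ m) ≤
        ∑ i, ∫ θ in (0 : ℝ)..Real.pi, 1 / 2 * Real.sin θ * (1 - Real.cos θ) ^ m *
          (star (u i) ⬝ᵥ (E b k 0 θ *ᵥ u i)).re :=
      Finset.sum_le_sum fun i _ => moment (hu i).2.choose_spec.choose_spec.2 hk (hp i)
        (hK i k hk).1 (hK i k hk).2 m
    rw [← h1, hAv k _ hw] at h2
    refine h2.trans (le_of_eq ?_)
    rw [div_mul_eq_mul_div, mul_div_assoc, ← intervalIntegral.integral_div]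
    congr 1
    congr 1
    ext φ
    ring

end Vale.Agent.P361.LRO.TwJ
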