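import Vale.Agent.P361.LRO.Tw.Defs
import Vale.Agent.P361.LRO.Tw.J.Form

/-!
P361, block twist, part 7: the inequality for real positive semidefinite matrices.
-/

namespace Vale.Agent.P361.LRO.TwJ

set_option linter.all false

open Matrix Finset
open scoped ComplexOrder

variable {V : Type} [Fintype V] [DecidableEq V]

/-- Real matrices as complex matrices. -/
noncomputable def cm (W : Matrix (V → Fin 2) (V → Fin 2) ℝ) : Opr V :=
  Matrix.of fun σ τ => ((W σ τ : ℝ) : ℂ)

theorem cm_mul (A B : Matrix (V → Fin 2) (V → Fin 2) ℝ) : cm (A * B) = cm A * cm B := by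
  ext σ τ; simp [cm, Matrix.mul_apply]

theorem cm_trace (A : Matrix (V → Fin 2) (V → Fin 2) ℝ) :
    Matrix.trace (cm A) = ((Matrix.trace A : ℝ) : ℂ) := by
  simp [cm, Matrix.trace]

theorem cm_conj (A : Matrix (V → Fin 2) (V → Fin 2) ℝ) : (cm A)ᴴ = cm Aᵀ := by
  ext σ τ; simp [cm, Matrix.conjTranspose_apply]

theorem cm_add (A B : Matrix (V → Fin 2) (V → Fin 2) ℝ) : cm (A + B) = cm A + cm B := by
  ext σ τ; simp [cm]

theorem cm_sub (A B : Matrix (V → Fin 2) (V → Fin 2) ℝ) : cm (A - B) = cm A - cm B := by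
  ext σ τ; simp [cm]

theorem cm_smul (c : ℝ) (A : Matrix (V → Fin 2) (V → Fin 2) ℝ) :
    cm (c • A) = (c : ℂ) • cm A := by
  ext σ τ; simp [cm]

theorem cm_one : cm (1 : Matrix (V → Fin 2) (V → Fin 2) ℝ) = 1 := by
  ext σ τ; simp only [cm, Matrix.of_apply, Matrix.one_apply]; split_ifs <;> simp

theorem cm_sum {ι : Type} (s : Finset ι) (A : ι → Matrix (V → Fin 2) (V → Fin 2) ℝ) :
    cm (∑ i ∈ s, A i) = ∑ i ∈ s, cm (A i) := by
  ext σ τ; simp [cm, Matrix.sum_apply]

open scoped MatrixOrder in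
theorem cm_factor {W : Matrix (V → Fin 2) (V → Fin 2) ℝ} (hW : W.PosSemidef) :
    ∃ R : Opr V, cm W = Rᴴ * R := by
  obtain ⟨B, hB⟩ := CStarAlgebra.nonneg_iff_eq_star_mul_self.mp hW.nonneg
  refine ⟨cm B, ?_⟩
  rw [cm_conj, ← cm_mul, hB]
  congr 2

/-- The rotated slice and `rotT`. -/
theorem Tw_eq (b : Finset V) (k φ : ℝ) :
    Tw b k φ = ((Real.cosh (k / 2) ^ b.card : ℝ) : ℂ) • cm (rotT b (Real.tanh (k / 2)) φ) := by
  ext σ τ
  rw [Matrix.smul_apply, smul_eq_mul, Tw, pr, P, Matrix.of_apply, cm, Matrix.of_apply, rotT,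
    Matrix.of_apply]
  have h1 : (Real.cosh (k / 2) ^ b.card : ℝ) = ∏ x : V, if x ∈ b then Real.cosh (k / 2) else 1 := by
    rw [Finset.prod_ite_mem, Finset.univ_inter, Finset.prod_const]
  rw [h1, ← Complex.ofReal_mul, ← Finset.prod_mul_distrib, Complex.ofReal_prod]
  refine Finset.prod_congr rfl fun x _ => ?_
  have hc := (Real.cosh_pos (k / 2)).ne'
  by_cases hx : x ∈ b
  · rw [blk, if_pos hx, if_pos hx, if_pos hx]
    have hs : Real.cosh (k / 2) * Real.tanh (k / 2) = Real.sinh (k / 2) := by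
      rw [Real.tanh_eq_sinh_div_cosh]; field_simp
    generalize σ x = i
    generalize τ x = j
    fin_cases i <;> fin_cases j
    · simp only [gm, rotM, Matrix.of_apply, Matrix.cons_val', Matrix.cons_val_zero,
        Fin.zero_eta, Matrix.cons_val_fin_one]
      congr 1
      rw [← hs]; ring
    · simp only [gm, rotM, Matrix.of_apply, Matrix.cons_val', Matrix.cons_val_zero,
        Fin.zero_eta, Matrix.cons_val_fin_one, Fin.mk_one, Matrix.cons_val_one]
      congr 1
      rw [← hs]; ring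
    · simp only [gm, rotM, Matrix.of_apply, Matrix.cons_val', Matrix.cons_val_zero,
        Fin.zero_eta, Matrix.cons_val_fin_one, Fin.mk_one, Matrix.cons_val_one]
      congr 1
      rw [← hs]; ring
    · simp only [gm, rotM, Matrix.of_apply, Matrix.cons_val', Matrix.cons_val_zero,
        Fin.zero_eta, Matrix.cons_val_fin_one, Fin.mk_one, Matrix.cons_val_one]
      congr 1
      rw [← hs]; ring
  · rw [blk, if_neg hx, if_neg hx, if_neg hx, one_mul, Matrix.one_apply]
    split_ifs <;> simp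

/-- The trace against a matrix preserving the total number only sees the pinched part. -/
theorem trace_E (b : Finset V) (k θ : ℝ) {W : Opr V}
    (hsym : ∀ σ τ, W σ τ ≠ 0 → nb univ σ = nb univ τ) :
    Matrix.trace (W * E b k 0 θ) = Matrix.trace (W * Tw b k θ) := by
  simp only [Matrix.trace, Matrix.diag, Matrix.mul_apply]
  refine Finset.sum_congr rfl fun σ _ => Finset.sum_congr rfl fun τ _ => ?_
  by_cases h1 : W σ τ = 0
  · rw [h1, zero_mul, zero_mul]
  · congr 1
    rw [E, Pi, Matrix.of_apply]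
    split_ifs with h2
    · rfl
    · -- then the entry of `Tw` vanishes
      by_contra hne
      have hne' : Tw b k θ τ σ ≠ 0 := fun h => hne h.symm
      rw [Tw, pr, P, Matrix.of_apply, Finset.prod_ne_zero_iff] at hne'
      apply h2
      have h3 : ∀ y, y ∉ b → τ y = σ y := by
        intro y hy
        have := hne' y (Finset.mem_univ y)
        rw [blk, if_neg hy] at this
        by_contra hc
        exact this (Matrix.one_apply_ne hc)
      have h4 := hsym σ τ h1
      rw [nb, nb, ← Finset.sum_add_sum_compl b, ← Finset.sum_add_sum_compl b] at h4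
      have h5 : ∑ y ∈ bᶜ, ((σ y : ℕ) : ℤ) = ∑ y ∈ bᶜ, ((τ y : ℕ) : ℤ) :=
        Finset.sum_congr rfl fun y hy => by rw [h3 y (Finset.mem_compl.1 hy)]
      rw [nb, nb]
      omega

theorem trace_Av (b : Finset V) (k : ℝ) {w : ℝ → ℝ} (hw : Continuous w) {W : Opr V}
    (hsym : ∀ σ τ, W σ τ ≠ 0 → nb univ σ = nb univ τ) :
    Matrix.trace (W * Av b k 0 w) =
      ∫ θ in (0 : ℝ)..Real.pi, ((w θ : ℝ) : ℂ) * Matrix.trace (W * Tw b k θ) := by
  rw [mul_Av b k 0 hw, Matrix.trace]
  simp only [Matrix.diag, Matrix.of_apply]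
  rw [← intervalIntegral.integral_finset_sum]
  · congr 1
    ext θ
    rw [← trace_E b k θ hsym, Matrix.trace, Finset.mul_sum]
    rfl
  · intro σ _
    refine (Continuous.mul (Complex.continuous_ofReal.comp hw) ?_).intervalIntegrable _ _
    simp only [Matrix.mul_apply]
    exact continuous_finset_sum _ fun ρ _ => continuous_const.mul (continuous_E b k 0 ρ σ)

/-! ### The Casimir operator and the exchange operators -/

theorem st_st_apply {x y : V} (hxy : x ≠ y) (A B : M2) (σ τ : V → Fin 2) :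
    (st x A * st y B) σ τ = A (σ x) (τ x) * B (σ y) (τ y) *
      if (∀ z, z ≠ x → z ≠ y → σ z = τ z) then 1 else 0 := by
  rw [show st y B = P (Function.update (fun _ => 1) y B) from rfl, st_mul_P,
    Function.update_of_ne hxy, mul_one, P_update, mul_assoc]
  congr 1
  rw [← Finset.mul_prod_erase _ _ (Finset.mem_erase.2 ⟨hxy.symm, Finset.mem_univ y⟩)]
  congr 1
  · simp
  · split_ifs with h
    · refine Finset.prod_eq_one fun z hz => ?_
      have h1 := Finset.mem_erase.1 hz
      have h2 := Finset.mem_erase.1 h1.2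
      rw [Function.update_of_ne h1.1, h z h2.1 h1.1, Matrix.one_apply_eq]
    · push Not at h
      obtain ⟨z, hz1, hz2, hz3⟩ := h
      refine Finset.prod_eq_zero
        (Finset.mem_erase.2 ⟨hz2, Finset.mem_erase.2 ⟨hz1, Finset.mem_univ z⟩⟩) ?_
      rw [Function.update_of_ne hz2]
      exact Matrix.one_apply_ne hz3

theorem swap_eq {x y : V} (hxy : x ≠ y) :
    cm (swapM x y) = (1 / 2 : ℂ) • (1 : Opr V) + (2 : ℂ) • (st x sz * st y sz) +
      st x sm * st y sp + st x sp * st y sm := by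
  ext σ τ
  simp only [Matrix.add_apply, Matrix.smul_apply, smul_eq_mul, st_st_apply hxy]
  rw [cm, Matrix.of_apply, swapM, Matrix.of_apply]
  by_cases h : ∀ z, z ≠ x → z ≠ y → σ z = τ z
  · simp only [if_pos h, mul_one]
    have h1 : (σ = τ ∘ Equiv.swap x y) ↔ (σ x = τ y ∧ σ y = τ x) := by
      constructor
      · intro hc
        rw [hc]
        simp
      · rintro ⟨ha, hb⟩
        ext1 z
        by_cases hzx : z = x
        · subst hzx; simp [ha]
        · by_cases hzy : z = y
          · subst hzy; simp [hb]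
          · rw [Function.comp_apply, Equiv.swap_apply_of_ne_of_ne hzx hzy, h z hzx hzy]
    have h2 : (σ = τ) ↔ (σ x = τ x ∧ σ y = τ y) := by
      constructor
      · intro hc; rw [hc]; simp
      · rintro ⟨ha, hb⟩
        ext1 z
        by_cases hzx : z = x
        · subst hzx; exact ha
        · by_cases hzy : z = y
          · subst hzy; exact hb
          · exact h z hzx hzy
    rw [Matrix.one_apply]
    simp only [h1, h2]
    generalize σ x = i
    generalize σ y = j
    generalize τ x = i'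
    generalize τ y = j'
    fin_cases i <;> fin_cases j <;> fin_cases i' <;> fin_cases j' <;>
      simp [sz, sm, sp] <;> norm_num
  · simp only [if_neg h, mul_zero, add_zero]
    have h1 : ¬ (σ = τ ∘ Equiv.swap x y) := by
      intro hc
      apply h
      intro z hzx hzy
      rw [hc, Function.comp_apply, Equiv.swap_apply_of_ne_of_ne hzx hzy]
    have h2 : ¬ (σ = τ) := by
      intro hc
      apply h
      intro z _ _
      rw [hc]
    rw [if_neg h1, Matrix.one_apply_ne h2]
    simp

theorem hM_self (x : V) : cm (hM x x) = 0 := by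
  ext σ τ
  simp only [cm, hM, swapM, Matrix.of_apply, Matrix.smul_apply, Matrix.sub_apply,
    Equiv.swap_self, Equiv.coe_refl, Function.comp_id, Matrix.one_apply, smul_eq_mul,
    Matrix.zero_apply]
  simp

/-- One pair. -/
noncomputable def Fp (x y : V) : Opr V :=
  (1 / 2 : ℂ) • (st x sm * st y sp + st y sm * st x sp) + (1 / 2 : ℂ) •
    (st x sz * st y sz + st y sz * st x sz)

theorem Fp_ne {x y : V} (hxy : x ≠ y) : (1 / 4 : ℂ) • (1 : Opr V) - Fp x y = cm (hM x y) := by
  have h1 : st y sm * st x sp = st x sp * st y sm := st_comm hxy.symm _ _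
  have h2 : st y sz * st x sz = st x sz * st y sz := st_comm hxy.symm _ _
  have h3 : cm (hM x y) = (1 / 2 : ℂ) • ((1 : Opr V) - cm (swapM x y)) := by
    rw [hM, cm_smul, cm_sub, cm_one]; push_cast; rfl
  rw [h3, swap_eq hxy, Fp, h1, h2]
  ext σ τ
  simp only [Matrix.add_apply, Matrix.sub_apply, Matrix.smul_apply, smul_eq_mul]
  ring

theorem Fp_self (x : V) :
    (1 / 4 : ℂ) • (1 : Opr V) - Fp x x = cm (hM x x) - ((1 / 2 : ℂ) • (1 : Opr V) - st x sz) := by
  rw [hM_self, Fp, st_mul_st, st_mul_st]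
  have h1 : (1 : Opr V) = st x 1 := by
    rw [st, ← P_one]
    congr 1
    ext1 y
    by_cases h : y = x
    · subst h; simp
    · simp [Function.update_of_ne h]
  rw [h1, ← st_add, ← st_add, ← st_smul, ← st_smul, ← st_smul, ← st_smul, ← st_add, ← st_sub,
    ← st_sub]
  have h2 : (1 / 4 : ℂ) • (1 : M2) - ((1 / 2 : ℂ) • (sm * sp + sm * sp) +
      (1 / 2 : ℂ) • (sz * sz + sz * sz)) = -((1 / 2 : ℂ) • (1 : M2) - sz) := by
    ext i j
    fin_cases i <;> fin_cases j <;>
      simp [sm, sp, sz, Matrix.mul_apply, Fin.sum_univ_two] <;> norm_num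
  rw [h2, zero_sub]
  have h3 : ∀ A : M2, st x (-A) = -st x A := fun A => by
    have := st_smul x (-1) A
    simpa using this
  rw [h3]

theorem Cas_eq (b : Finset V) :
    (((b.card : ℝ) / 2 * ((b.card : ℝ) / 2 + 1) : ℝ) : ℂ) • (1 : Opr V) - Cas b =
      ∑ x ∈ b, ∑ y ∈ b, cm (hM x y) := by
  have h1 : Cas b = ∑ x ∈ b, ∑ y ∈ b, Fp x y + ∑ x ∈ b, st x sz := by
    have e1 : ∑ x ∈ b, ∑ y ∈ b, Fp x y = ∑ x ∈ b, ∑ y ∈ b, (st x sm * st y sp) +
        ∑ x ∈ b, ∑ y ∈ b, (st x sz * st y sz) := by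
      simp only [Fp, Finset.sum_add_distrib, ← Finset.smul_sum]
      rw [Finset.sum_comm (f := fun x y => st y sm * st x sp),
        Finset.sum_comm (f := fun x y => st y sz * st x sz), ← two_smul ℂ, ← two_smul ℂ, smul_smul,
        smul_smul]
      norm_num
    rw [e1, Cas, Sg, Sg, Sg, Finset.sum_mul_sum, Finset.sum_mul_sum]
  have h2 : ∀ x ∈ b, ∑ y ∈ b, ((1 / 4 : ℂ) • (1 : Opr V) - Fp x y) =
      ∑ y ∈ b, cm (hM x y) - ((1 / 2 : ℂ) • (1 : Opr V) - st x sz) := by
    intro x hx
    rw [← Finset.add_sum_erase b _ hx, ← Finset.add_sum_erase b _ hx, Fp_self]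
    have : ∑ y ∈ b.erase x, ((1 / 4 : ℂ) • (1 : Opr V) - Fp x y) =
        ∑ y ∈ b.erase x, cm (hM x y) :=
      Finset.sum_congr rfl fun y hy => Fp_ne (Finset.ne_of_mem_erase hy).symm
    rw [this]
    abel
  have h3 := Finset.sum_congr rfl h2
  simp only [Finset.sum_sub_distrib, Finset.sum_const] at h3
  have h4 : ∑ x ∈ b, ∑ y ∈ b, cm (hM x y) =
      b.card • b.card • ((1 / 4 : ℂ) • (1 : Opr V)) - ∑ x ∈ b, ∑ y ∈ b, Fp x y +
        (b.card • ((1 / 2 : ℂ) • (1 : Opr V)) - ∑ x ∈ b, st x sz) := by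
    rw [h3]; abel
  rw [h4, h1]
  simp only [← Nat.cast_smul_eq_nsmul ℂ, smul_smul]
  ext σ τ
  simp only [Matrix.add_apply, Matrix.sub_apply, Matrix.smul_apply, smul_eq_mul]
  push_cast
  ring

theorem Sz_cm (b : Finset V) :
    (((b.card : ℝ) / 2 : ℝ) : ℂ) • (1 : Opr V) - Sg b sz =
      ∑ x ∈ b, cm ((1 / 2 : ℝ) • (1 - szM x)) := by
  have h1 : ∀ x : V, cm ((1 / 2 : ℝ) • (1 - szM x)) = (1 / 2 : ℂ) • (1 : Opr V) - st x sz := by
    intro x
    ext σ τ
    rw [cm, Matrix.of_apply, Matrix.smul_apply, Matrix.sub_apply, szM, Matrix.sub_apply,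
      Matrix.smul_apply, st_apply]
    by_cases h : σ = τ
    · subst h
      rw [Matrix.one_apply_eq, Matrix.diagonal_apply_eq, Matrix.one_apply_eq,
        if_pos (fun _ _ => rfl)]
      generalize σ x = i
      fin_cases i <;> simp [sz] <;> norm_num
    · rw [Matrix.one_apply_ne h, Matrix.diagonal_apply_ne _ h, Matrix.one_apply_ne h]
      by_cases hx : σ x = τ x
      · rw [if_neg]
        · simp
        · intro hc
          exact h (funext fun y => by
            by_cases hy : y = x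
            · rw [hy, hx]
            · exact hc y hy)
      · have : sz (σ x) (τ x) = 0 := by
          revert hx
          generalize σ x = i
          generalize τ x = j
          intro hx
          fin_cases i <;> fin_cases j <;> simp [sz] at hx ⊢
        rw [this]; simp
  rw [Finset.sum_congr rfl fun x _ => h1 x, Finset.sum_sub_distrib, Finset.sum_const, Sg]
  congr 1
  ext σ τ
  simp only [Matrix.smul_apply, smul_eq_mul, nsmul_eq_mul]
  push_cast
  ring

/-- **The operator part of the block twist.** -/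
theorem op_partJ {W : Matrix (V → Fin 2) (V → Fin 2) ℝ} (hW : W.PosSemidef)
    (hsym : ∀ σ τ, W σ τ ≠ 0 → ∑ x, ((σ x : ℕ) : ℤ) = ∑ x, ((τ x : ℕ) : ℤ))
    {b : Finset V} (hb : b.Nonempty) {K κ : ℝ} (hK : 0 < K) (hκ : 0 < κ)
    (h : κ * (∫ φ in (0 : ℝ)..Real.pi, Real.sin φ * (1 - Real.cos φ) *
        Matrix.trace (W * rotT b (Real.tanh (K / (2 * b.card))) φ)) ≤
      ∫ φ in (0 : ℝ)..Real.pi, Real.sin φ *
        Matrix.trace (W * rotT b (Real.tanh (K / (2 * b.card))) φ)) :
    (∑ x ∈ b, Matrix.trace (W * ((1 / 2 : ℝ) • (1 - szM x)))) / b.card ≤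
      Real.exp 1 / κ * Matrix.trace W +
        (1 + K) * (2 / (b.card : ℝ) ^ 2 * ∑ x ∈ b, ∑ y ∈ b, Matrix.trace (W * hM x y)) := by
  obtain ⟨R, hR⟩ := cm_factor hW
  have hn : 0 < b.card := Finset.card_pos.2 hb
  have hn' : (0 : ℝ) < b.card := by exact_mod_cast hn
  set k := K / (b.card : ℝ) with hk
  have hk0 : 0 ≤ k := by positivity
  have hk2 : K / (2 * (b.card : ℝ)) = k / 2 := by rw [hk]; field_simp
  rw [hk2] at h
  have hsym' : ∀ σ τ, cm W σ τ ≠ 0 → nb univ σ = nb univ τ := by
    intro σ τ h1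
    apply hsym
    intro h2
    apply h1
    rw [cm, Matrix.of_apply, h2]; simp
  set Z : ℝ → ℝ := fun φ => Matrix.trace (W * rotT b (Real.tanh (k / 2)) φ) with hZ
  set c := Real.cosh (k / 2) ^ b.card with hc
  have hcpos : 0 < c := pow_pos (Real.cosh_pos _) _
  have hT : ∀ φ, Matrix.trace (cm W * Tw b k φ) = ((c * Z φ : ℝ) : ℂ) := by
    intro φ
    rw [Tw_eq, Matrix.mul_smul, Matrix.trace_smul, ← cm_mul, cm_trace, smul_eq_mul,
      ← Complex.ofReal_mul]
  have hA : Matrix.trace (cm W * opA b k) =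
      ((c / 2 * ∫ φ in (0 : ℝ)..Real.pi, Real.sin φ * Z φ : ℝ) : ℂ) := by
    rw [opA, trace_Av b k (by fun_prop) hsym', ← intervalIntegral.integral_const_mul,
      ← intervalIntegral.integral_ofReal]
    congr 1
    ext φ
    rw [hT]; push_cast; ring
  have hZc : Continuous Z := by
    have h1 : Continuous fun φ => (Matrix.trace (cm W * Tw b k φ)).re := by
      refine Complex.continuous_re.comp ?_
      simp only [Matrix.trace, Matrix.diag, Matrix.mul_apply]
      exact continuous_finset_sum _ fun σ _ => continuous_finset_sum _ fun τ _ =>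
        continuous_const.mul (continuous_Tw b k τ σ)
    have h2 : Z = fun φ => c⁻¹ * (Matrix.trace (cm W * Tw b k φ)).re := by
      ext φ
      rw [hT, Complex.ofReal_re]
      field_simp
    rw [h2]
    exact continuous_const.mul h1
  have hAB : Matrix.trace (cm W * (opA b k - opB b k)) =
      ((c / 2 * ∫ φ in (0 : ℝ)..Real.pi, Real.sin φ * (1 - Real.cos φ) * Z φ : ℝ) : ℂ) := by
    rw [Matrix.mul_sub, Matrix.trace_sub, opA, opB, trace_Av b k (by fun_prop) hsym',
      trace_Av b k (by fun_prop) hsym', ← intervalIntegral.integral_sub,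
      ← intervalIntegral.integral_const_mul, ← intervalIntegral.integral_ofReal]
    · congr 1
      ext φ
      rw [hT]; push_cast; ring
    · refine Continuous.intervalIntegrable ?_ _ _
      simp only [hT]
      fun_prop
    · refine Continuous.intervalIntegrable ?_ _ _
      simp only [hT]
      fun_prop
  -- the two operator inequalities
  have h1 : 0 ≤ (Matrix.trace (cm W * Yop b K)).re := by
    rw [hR]
    exact trace_form (c := 0) (Yop_form hb hK)
  have h2 : 0 ≤ (Matrix.trace (cm W * (((aN k b.card : ℝ) : ℂ) • (1 : Opr V) - opA b k))).re := by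
    rw [hR]
    refine trace_form (c := 0) fun w => ?_
    have := opA_form hk0 w (b := b)
    rw [Matrix.sub_mulVec, Matrix.smul_mulVec, Matrix.one_mulVec, dotProduct_sub, dotProduct_smul,
      smul_eq_mul, Complex.sub_re, Complex.re_ofReal_mul]
    linarith
  have ha := aN_pos hk0 b.card
  set a := aN k b.card with hadef
  set I0 := ∫ φ in (0 : ℝ)..Real.pi, Real.sin φ * Z φ with hI0
  set I1 := ∫ φ in (0 : ℝ)..Real.pi, Real.sin φ * (1 - Real.cos φ) * Z φ with hI1
  have h3 : c / 2 * I0 ≤ a * Matrix.trace W := by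
    rw [Matrix.mul_sub, Matrix.trace_sub, hA, Matrix.mul_smul, mul_one, Matrix.trace_smul,
      cm_trace, smul_eq_mul, Complex.sub_re, Complex.re_ofReal_mul, Complex.ofReal_re,
      Complex.ofReal_re] at h2
    linarith
  have h4 : (∑ x ∈ b, Matrix.trace (W * ((1 / 2 : ℝ) • (1 - szM x)))) / b.card ≤
      (1 + K) * (2 / (b.card : ℝ) ^ 2 * ∑ x ∈ b, ∑ y ∈ b, Matrix.trace (W * hM x y)) +
        Real.exp 1 / a * (c / 2 * I1) := by
    have e1 : Matrix.trace (cm W * ∑ x ∈ b, ∑ y ∈ b, cm (hM x y)) =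
        ((∑ x ∈ b, ∑ y ∈ b, Matrix.trace (W * hM x y) : ℝ) : ℂ) := by
      simp only [Matrix.mul_sum, Matrix.trace_sum, ← cm_mul, cm_trace]
      push_cast; rfl
    have e2 : Matrix.trace (cm W * ∑ x ∈ b, cm ((1 / 2 : ℝ) • (1 - szM x))) =
        ((∑ x ∈ b, Matrix.trace (W * ((1 / 2 : ℝ) • (1 - szM x))) : ℝ) : ℂ) := by
      simp only [Matrix.mul_sum, Matrix.trace_sum, ← cm_mul, cm_trace]
      push_cast; rfl
    rw [Yop, Cas_eq, Sz_cm, Matrix.mul_sub, Matrix.mul_add, Matrix.mul_smul, Matrix.mul_smul,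
      Matrix.mul_smul, Matrix.trace_sub, Matrix.trace_add, Matrix.trace_smul, Matrix.trace_smul,
      Matrix.trace_smul, e1, e2, ← hk, hAB, smul_eq_mul, smul_eq_mul, smul_eq_mul,
      Complex.sub_re, Complex.add_re, ← Complex.ofReal_mul, ← Complex.ofReal_mul,
      ← Complex.ofReal_mul, Complex.ofReal_re, Complex.ofReal_re, Complex.ofReal_re] at h1
    rw [div_eq_mul_inv, mul_comm _ (b.card : ℝ)⁻¹, ← one_div]
    linarith
  have h5 : c / 2 * I1 ≤ 1 / κ * (a * Matrix.trace W) := by
    have : I1 ≤ 1 / κ * I0 := by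
      rw [div_mul_eq_mul_div, one_mul, le_div_iff₀ hκ]
      linarith
    calc c / 2 * I1 ≤ c / 2 * (1 / κ * I0) := mul_le_mul_of_nonneg_left this (by positivity)
      _ = 1 / κ * (c / 2 * I0) := by ring
      _ ≤ _ := mul_le_mul_of_nonneg_left h3 (by positivity)
  have h6 : Real.exp 1 / a * (c / 2 * I1) ≤ Real.exp 1 / κ * Matrix.trace W := by
    calc Real.exp 1 / a * (c / 2 * I1) ≤ Real.exp 1 / a * (1 / κ * (a * Matrix.trace W)) :=
          mul_le_mul_of_nonneg_left h5 (by positivity)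
      _ = _ := by field_simp
  linarith

end Vale.Agent.P361.LRO.TwJ
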