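import Vale.Agent.P361.LRO.Tw.J.Spin

/-!
P361, block twist, part 2: the rotated slice `T θ`, its derivative, and the operators
`A = ½ ∫ sin θ E₀`, `B = ½ ∫ sin θ cos θ E₀`, `C = ½ ∫ sin² θ E₁`.
-/

namespace Vale.Agent.P361.LRO.TwJ

set_option linter.all false

open Matrix Finset MeasureTheory intervalIntegral

variable {V : Type} [Fintype V] [DecidableEq V]

/-- The one site matrix `cosh(k/2) + sinh(k/2) (cos θ σ³ + sin θ σ¹)`. -/
noncomputable def gm (k θ : ℝ) : M2 :=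
  !![((Real.cosh (k / 2) + Real.sinh (k / 2) * Real.cos θ : ℝ) : ℂ),
      ((Real.sinh (k / 2) * Real.sin θ : ℝ) : ℂ);
     ((Real.sinh (k / 2) * Real.sin θ : ℝ) : ℂ),
      ((Real.cosh (k / 2) - Real.sinh (k / 2) * Real.cos θ : ℝ) : ℂ)]

/-- Its derivative. -/
noncomputable def gm' (k θ : ℝ) : M2 :=
  !![((-(Real.sinh (k / 2) * Real.sin θ) : ℝ) : ℂ), ((Real.sinh (k / 2) * Real.cos θ : ℝ) : ℂ);
     ((Real.sinh (k / 2) * Real.cos θ : ℝ) : ℂ), ((Real.sinh (k / 2) * Real.sin θ : ℝ) : ℂ)]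

theorem hasDerivAt_gm (k θ : ℝ) (i j : Fin 2) :
    HasDerivAt (fun θ => gm k θ i j) (gm' k θ i j) θ := by
  have hs := (Real.hasDerivAt_sin θ).const_mul (Real.sinh (k / 2))
  have hc := (Real.hasDerivAt_cos θ).const_mul (Real.sinh (k / 2))
  fin_cases i <;> fin_cases j
  · have := (hc.const_add (Real.cosh (k / 2))).ofReal_comp
    simpa [gm, gm'] using this
  · simpa [gm, gm'] using hs.ofReal_comp
  · simpa [gm, gm'] using hs.ofReal_comp
  · have := (hc.const_sub (Real.cosh (k / 2))).ofReal_comp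
    simpa [gm, gm'] using this

/-- Local commutator identity. -/
theorem gm_comm (k θ : ℝ) :
    ((Real.sin θ : ℝ) : ℂ) • (sm * gm k θ - gm k θ * sm) =
      ((Real.sin θ : ℝ) : ℂ) • gm' k θ
        - ((Real.cos θ : ℝ) : ℂ) • (sz * gm k θ - gm k θ * sz) := by
  ext i j
  fin_cases i <;> fin_cases j <;>
    simp [gm, gm', sm, sz, Matrix.mul_apply, Fin.sum_univ_two] <;> ring

/-- The rotated slice. -/
noncomputable def Tw (b : Finset V) (k θ : ℝ) : Opr V := pr b (gm k θ)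

/-- The derivative of the rotated slice. -/
noncomputable def Tw' (b : Finset V) (k θ : ℝ) : Opr V :=
  ∑ x ∈ b, P (Function.update (blk b (gm k θ)) x (gm' k θ))

theorem hasDerivAt_P (B : ℝ → V → M2) (B' : V → M2) (t : ℝ)
    (h : ∀ y i j, HasDerivAt (fun s => B s y i j) (B' y i j) t) (σ τ : V → Fin 2) :
    HasDerivAt (fun s => P (B s) σ τ)
      (∑ x, P (Function.update (B t) x (B' x)) σ τ) t := by
  have := HasDerivAt.fun_finset_prod (u := (Finset.univ : Finset V))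
    (f := fun y s => B s y (σ y) (τ y)) (f' := fun y => B' y (σ y) (τ y)) (x := t)
    (fun y _ => h y _ _)
  have h2 : (fun s => P (B s) σ τ) = fun x => ∏ i, B x i (σ i) (τ i) := rfl
  rw [h2]
  refine this.congr_deriv (Finset.sum_congr rfl fun x _ => ?_)
  rw [P_update, smul_eq_mul, mul_comm]

theorem P_update_zero (B : V → M2) (x : V) : P (Function.update B x (0 : M2)) = 0 := by
  ext σ τ
  rw [P_update]; simp

theorem hasDerivAt_pr (b : Finset V) (G : ℝ → M2) (G' : M2) (t : ℝ)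
    (h : ∀ i j, HasDerivAt (fun s => G s i j) (G' i j) t) (σ τ : V → Fin 2) :
    HasDerivAt (fun s => pr b (G s) σ τ)
      ((∑ x ∈ b, P (Function.update (blk b (G t)) x G')) σ τ) t := by
  have h1 := hasDerivAt_P (fun s => blk b (G s)) (fun y => if y ∈ b then G' else 0) t
    (fun y i j => by
      by_cases hy : y ∈ b
      · simpa [blk, hy] using h i j
      · simp only [blk, hy, if_false]
        exact hasDerivAt_const _ _) σ τ
  refine HasDerivAt.congr_deriv (f := fun s => pr b (G s) σ τ) h1 ?_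
  rw [Matrix.sum_apply, ← Finset.sum_subset (Finset.subset_univ b)]
  · refine Finset.sum_congr rfl fun x hx => ?_
    rw [if_pos hx]
  · intro x _ hx
    rw [if_neg hx, P_update_zero]; rfl

theorem hasDerivAt_Tw (b : Finset V) (k θ : ℝ) (σ τ : V → Fin 2) :
    HasDerivAt (fun θ => Tw b k θ σ τ) (Tw' b k θ σ τ) θ :=
  hasDerivAt_pr b _ _ θ (fun i j => hasDerivAt_gm k θ i j) σ τ

theorem Tw_comm (b : Finset V) (k θ : ℝ) :
    ((Real.sin θ : ℝ) : ℂ) • (Sg b sm * Tw b k θ - Tw b k θ * Sg b sm) =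
      ((Real.sin θ : ℝ) : ℂ) • Tw' b k θ
        - ((Real.cos θ : ℝ) : ℂ) • (Sg b sz * Tw b k θ - Tw b k θ * Sg b sz) := by
  simp only [Tw, Tw', Sg_mul_pr, pr_mul_Sg, ← Finset.sum_sub_distrib, Finset.smul_sum,
    ← P_update_sub, ← P_update_smul]
  exact Finset.sum_congr rfl fun x _ => by rw [gm_comm]

/-- Harmonic components. -/
noncomputable def E (b : Finset V) (k : ℝ) (q : ℤ) (θ : ℝ) : Opr V := Pi b q (Tw b k θ)

theorem E_comm (b : Finset V) (k : ℝ) (q : ℤ) (θ : ℝ) :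
    ((Real.sin θ : ℝ) : ℂ) • (Sg b sm * E b k q θ - E b k q θ * Sg b sm) =
      ((Real.sin θ : ℝ) : ℂ) • Pi b (q + 1) (Tw' b k θ)
        + (((q + 1 : ℤ) : ℂ) * ((Real.cos θ : ℝ) : ℂ)) • E b k (q + 1) θ := by
  rw [E, (shift_Sm b).mul_Pi, (shift_Sm b).Pi_mul, ← Pi_sub, ← Pi_smul, Tw_comm, Pi_sub, Pi_smul,
    Pi_smul, Pi_comm_Sz, E, smul_smul, sub_eq_add_neg, ← neg_smul]
  congr 2
  ring

theorem hasDerivAt_E (b : Finset V) (k : ℝ) (q : ℤ) (θ : ℝ) (σ τ : V → Fin 2) :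
    HasDerivAt (fun θ => E b k q θ σ τ) (Pi b q (Tw' b k θ) σ τ) θ := by
  simp only [E, Pi, Matrix.of_apply]
  split_ifs
  · exact hasDerivAt_Tw b k θ σ τ
  · exact hasDerivAt_const _ _

/-- `d/dθ (sin^{q+1} E_{q+1}) = sin^{q+1} [S⁻, E_q]`. -/
theorem hasDerivAt_sinE (b : Finset V) (k : ℝ) (q : ℕ) (θ : ℝ) (σ τ : V → Fin 2) :
    HasDerivAt (fun θ => ((Real.sin θ ^ (q + 1) : ℝ) : ℂ) * E b k ((q : ℤ) + 1) θ σ τ)
      (((Real.sin θ ^ (q + 1) : ℝ) : ℂ) *
        (Sg b sm * E b k q θ - E b k q θ * Sg b sm) σ τ) θ := by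
  have h1 : HasDerivAt (fun θ => ((Real.sin θ ^ (q + 1) : ℝ) : ℂ))
      ((((q + 1 : ℕ) : ℝ) * Real.sin θ ^ q * Real.cos θ : ℝ) : ℂ) θ := by
    have := ((Real.hasDerivAt_sin θ).pow (q + 1)).ofReal_comp
    simpa using this
  have h2 := h1.mul (hasDerivAt_E b k ((q : ℤ) + 1) θ σ τ)
  refine HasDerivAt.congr_deriv
    (f := fun θ => ((Real.sin θ ^ (q + 1) : ℝ) : ℂ) * E b k ((q : ℤ) + 1) θ σ τ) h2 ?_
  have h3 := congrFun (congrFun (E_comm b k q θ) σ) τ
  simp only [Matrix.smul_apply, Matrix.add_apply, smul_eq_mul] at h3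
  push_cast at h3 ⊢
  linear_combination (-(Complex.sin (θ : ℂ) ^ q)) * h3

theorem continuous_Tw (b : Finset V) (k : ℝ) (σ τ : V → Fin 2) :
    Continuous fun θ => Tw b k θ σ τ :=
  continuous_iff_continuousAt.2 fun θ => (hasDerivAt_Tw b k θ σ τ).continuousAt

theorem continuous_E (b : Finset V) (k : ℝ) (q : ℤ) (σ τ : V → Fin 2) :
    Continuous fun θ => E b k q θ σ τ :=
  continuous_iff_continuousAt.2 fun θ => (hasDerivAt_E b k q θ σ τ).continuousAt

/-- Weighted average of the harmonic component `E_q`. -/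
noncomputable def Av (b : Finset V) (k : ℝ) (q : ℤ) (w : ℝ → ℝ) : Opr V :=
  Matrix.of fun σ τ => ∫ θ in (0 : ℝ)..Real.pi, ((w θ : ℝ) : ℂ) * E b k q θ σ τ

theorem continuous_comm (b : Finset V) (k : ℝ) (q : ℤ) (σ τ : V → Fin 2) (Y : Opr V) :
    Continuous fun θ => (Y * E b k q θ - E b k q θ * Y) σ τ := by
  simp only [Matrix.sub_apply, Matrix.mul_apply]
  refine Continuous.sub (continuous_finset_sum _ fun ρ _ => ?_)
    (continuous_finset_sum _ fun ρ _ => ?_)
  · exact continuous_const.mul (continuous_E b k q ρ τ)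
  · exact (continuous_E b k q σ ρ).mul continuous_const

theorem mul_Av (b : Finset V) (k : ℝ) (q : ℤ) {w : ℝ → ℝ} (hw : Continuous w) (Y : Opr V) :
    Y * Av b k q w = Matrix.of fun σ τ =>
      ∫ θ in (0 : ℝ)..Real.pi, ((w θ : ℝ) : ℂ) * (Y * E b k q θ) σ τ := by
  ext σ τ
  simp only [Av, Matrix.mul_apply, Matrix.of_apply, Finset.mul_sum]
  rw [intervalIntegral.integral_finset_sum]
  · refine Finset.sum_congr rfl fun ρ _ => ?_
    rw [← intervalIntegral.integral_const_mul]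
    congr 1
    ext θ
    ring
  · intro ρ _
    exact (((Complex.continuous_ofReal.comp hw).mul
      (continuous_const.mul (continuous_E b k q ρ τ))).intervalIntegrable _ _)

theorem Av_mul (b : Finset V) (k : ℝ) (q : ℤ) {w : ℝ → ℝ} (hw : Continuous w) (Y : Opr V) :
    Av b k q w * Y = Matrix.of fun σ τ =>
      ∫ θ in (0 : ℝ)..Real.pi, ((w θ : ℝ) : ℂ) * (E b k q θ * Y) σ τ := by
  ext σ τ
  simp only [Av, Matrix.mul_apply, Matrix.of_apply, Finset.mul_sum]
  rw [intervalIntegral.integral_finset_sum]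
  · refine Finset.sum_congr rfl fun ρ _ => ?_
    rw [← intervalIntegral.integral_mul_const]
    congr 1
    ext θ
    ring
  · intro ρ _
    exact (((Complex.continuous_ofReal.comp hw).mul
      ((continuous_E b k q σ ρ).mul continuous_const)).intervalIntegrable _ _)

theorem comm_Av (b : Finset V) (k : ℝ) (q : ℤ) {w : ℝ → ℝ} (hw : Continuous w) (Y : Opr V)
    (σ τ : V → Fin 2) :
    (Y * Av b k q w - Av b k q w * Y) σ τ =
      ∫ θ in (0 : ℝ)..Real.pi, ((w θ : ℝ) : ℂ) * (Y * E b k q θ - E b k q θ * Y) σ τ := by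
  rw [Matrix.sub_apply, mul_Av b k q hw, Av_mul b k q hw, Matrix.of_apply, Matrix.of_apply,
    ← intervalIntegral.integral_sub]
  · congr 1
    ext θ
    rw [Matrix.sub_apply]; ring
  · refine (Continuous.mul (Complex.continuous_ofReal.comp hw) ?_).intervalIntegrable _ _
    simp only [Matrix.mul_apply]
    exact continuous_finset_sum _ fun ρ _ => continuous_const.mul (continuous_E b k q ρ τ)
  · refine (Continuous.mul (Complex.continuous_ofReal.comp hw) ?_).intervalIntegrable _ _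
    simp only [Matrix.mul_apply]
    exact continuous_finset_sum _ fun ρ _ => (continuous_E b k q σ ρ).mul continuous_const

/-- `[S⁻, ∫ f sin^{q+1} E_q] = - ∫ f' sin^{q+1} E_{q+1}`. -/
theorem comm_Sm_Av (b : Finset V) (k : ℝ) (q : ℕ) (f f' : ℝ → ℝ)
    (hf : ∀ θ, HasDerivAt f (f' θ) θ) (hf' : Continuous f') :
    Sg b sm * Av b k q (fun θ => f θ * Real.sin θ ^ (q + 1))
      - Av b k q (fun θ => f θ * Real.sin θ ^ (q + 1)) * Sg b sm =
      -Av b k ((q : ℤ) + 1) (fun θ => f' θ * Real.sin θ ^ (q + 1)) := by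
  have hfc : Continuous f := continuous_iff_continuousAt.2 fun θ => (hf θ).continuousAt
  have hw : Continuous fun θ => f θ * Real.sin θ ^ (q + 1) :=
    hfc.mul (Real.continuous_sin.pow _)
  ext σ τ
  rw [comm_Av b k q hw, Matrix.neg_apply, Av, Matrix.of_apply]
  have h1 : ∀ θ ∈ Set.uIcc (0 : ℝ) Real.pi,
      HasDerivAt (fun θ => ((f θ : ℝ) : ℂ)) ((f' θ : ℝ) : ℂ) θ :=
    fun θ _ => (hf θ).ofReal_comp
  have h2 : ∀ θ ∈ Set.uIcc (0 : ℝ) Real.pi,
      HasDerivAt (fun θ => ((Real.sin θ ^ (q + 1) : ℝ) : ℂ) * E b k ((q : ℤ) + 1) θ σ τ)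
        (((Real.sin θ ^ (q + 1) : ℝ) : ℂ) *
          (Sg b sm * E b k q θ - E b k q θ * Sg b sm) σ τ) θ :=
    fun θ _ => hasDerivAt_sinE b k q θ σ τ
  have h3 := intervalIntegral.integral_mul_deriv_eq_deriv_mul h1 h2
    ((Complex.continuous_ofReal.comp hf').intervalIntegrable _ _)
    ((Continuous.mul (Complex.continuous_ofReal.comp (Real.continuous_sin.pow _))
      (continuous_comm b k q σ τ _)).intervalIntegrable _ _)
  simp only [Real.sin_pi, Real.sin_zero] at h3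
  have h4 : (∫ θ in (0 : ℝ)..Real.pi, (((f θ * Real.sin θ ^ (q + 1) : ℝ)) : ℂ) *
      (Sg b sm * E b k q θ - E b k q θ * Sg b sm) σ τ) =
      ∫ θ in (0 : ℝ)..Real.pi, ((f θ : ℝ) : ℂ) * (((Real.sin θ ^ (q + 1) : ℝ) : ℂ) *
          (Sg b sm * E b k q θ - E b k q θ * Sg b sm) σ τ) := by
    congr 1; ext θ; push_cast; ring
  have h5 : (∫ θ in (0 : ℝ)..Real.pi, (((f' θ * Real.sin θ ^ (q + 1) : ℝ)) : ℂ) *
      E b k ((q : ℤ) + 1) θ σ τ) =
      ∫ θ in (0 : ℝ)..Real.pi, ((f' θ : ℝ) : ℂ) * (((Real.sin θ ^ (q + 1) : ℝ) : ℂ) *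
          E b k ((q : ℤ) + 1) θ σ τ) := by
    congr 1; ext θ; push_cast; ring
  rw [h4, h5, h3]
  simp

/-- `½ ∫ sin θ E₀`. -/
noncomputable def opA (b : Finset V) (k : ℝ) : Opr V :=
  Av b k 0 fun θ => 1 / 2 * Real.sin θ ^ 1
/-- `½ ∫ sin θ cos θ E₀`. -/
noncomputable def opB (b : Finset V) (k : ℝ) : Opr V :=
  Av b k 0 fun θ => 1 / 2 * Real.cos θ * Real.sin θ ^ 1
/-- `½ ∫ sin² θ E₁`. -/
noncomputable def opC (b : Finset V) (k : ℝ) : Opr V :=
  Av b k 1 fun θ => 1 / 2 * Real.sin θ ^ 2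

theorem Av_zero (b : Finset V) (k : ℝ) (q : ℤ) : Av b k q (fun _ => 0) = 0 := by
  ext σ τ; simp [Av]

theorem comm_Sm_A (b : Finset V) (k : ℝ) : Sg b sm * opA b k = opA b k * Sg b sm := by
  have := comm_Sm_Av b k 0 (fun _ => 1 / 2) (fun _ => 0) (fun θ => hasDerivAt_const _ _)
    continuous_const
  simp only [Nat.cast_zero, zero_add, zero_mul, Av_zero, neg_zero] at this
  exact sub_eq_zero.1 this

theorem comm_Sm_B (b : Finset V) (k : ℝ) :
    opB b k * Sg b sm = Sg b sm * opB b k - opC b k := by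
  have := comm_Sm_Av b k 0 (fun θ => 1 / 2 * Real.cos θ) (fun θ => 1 / 2 * -Real.sin θ)
    (fun θ => (Real.hasDerivAt_cos θ).const_mul _) (continuous_const.mul Real.continuous_sin.neg)
  simp only [Nat.cast_zero, zero_add] at this
  have h2 : -Av b k 1 (fun θ => 1 / 2 * -Real.sin θ * Real.sin θ ^ 1) = opC b k := by
    ext σ τ
    simp only [opC, Av, Matrix.neg_apply, Matrix.of_apply, ← intervalIntegral.integral_neg]
    congr 1; ext θ; push_cast; ring
  rw [h2] at this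
  rw [← this, opB]
  abel

theorem comm_Sm_C (b : Finset V) (k : ℝ) : Sg b sm * opC b k = opC b k * Sg b sm := by
  have := comm_Sm_Av b k 1 (fun _ => 1 / 2) (fun _ => 0) (fun θ => hasDerivAt_const _ _)
    continuous_const
  simp only [Nat.cast_one, zero_mul, Av_zero, neg_zero] at this
  exact sub_eq_zero.1 this

end Vale.Agent.P361.LRO.TwJ
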