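import Mathlib

/-!
P361, block twist, part 1: product operators on `V → Fin 2`, block sums of one site matrices,
pinching with respect to the number of down spins of a block.
-/

namespace Vale.Agent.P361.LRO.TwJ

set_option linter.all false

open Matrix Finset

variable {V : Type} [Fintype V] [DecidableEq V]

/-- Two by two matrices. -/
abbrev M2 : Type := Matrix (Fin 2) (Fin 2) ℂ

/-- Operators on `⊗_{x ∈ V} ℂ²`; basis `V → Fin 2`, `0` = up. -/
abbrev Opr (V : Type) : Type := Matrix (V → Fin 2) (V → Fin 2) ℂ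

/-- Product operator. -/
def P (B : V → M2) : Opr V := Matrix.of fun σ τ => ∏ y, B y (σ y) (τ y)

theorem P_mul (B C : V → M2) : P B * P C = P (fun y => B y * C y) := by
  ext σ τ
  simp only [P, Matrix.mul_apply, Matrix.of_apply]
  rw [Finset.prod_univ_sum, Fintype.piFinset_univ]
  refine Finset.sum_congr rfl fun ρ _ => ?_
  rw [← Finset.prod_mul_distrib]

theorem P_one : P (fun _ : V => (1 : M2)) = 1 := by
  ext σ τ
  simp only [P, Matrix.of_apply, Matrix.one_apply]
  by_cases h : σ = τ
  · subst h; simp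
  · rw [if_neg h]
    obtain ⟨y, hy⟩ := Function.ne_iff.mp h
    exact Finset.prod_eq_zero (Finset.mem_univ y) (by simp [hy])

theorem P_update (B : V → M2) (x : V) (A : M2) (σ τ : V → Fin 2) :
    P (Function.update B x A) σ τ = A (σ x) (τ x) * ∏ y ∈ univ.erase x, B y (σ y) (τ y) := by
  simp only [P, Matrix.of_apply]
  rw [← Finset.mul_prod_erase _ _ (Finset.mem_univ x)]
  congr 1
  · simp
  · refine Finset.prod_congr rfl fun y hy => ?_
    rw [Function.update_of_ne (Finset.ne_of_mem_erase hy)]

theorem P_update_add (B : V → M2) (x : V) (A A' : M2) :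
    P (Function.update B x (A + A')) = P (Function.update B x A) + P (Function.update B x A') := by
  ext σ τ
  simp only [P_update, Matrix.add_apply, add_mul]

theorem P_update_sub (B : V → M2) (x : V) (A A' : M2) :
    P (Function.update B x (A - A')) = P (Function.update B x A) - P (Function.update B x A') := by
  ext σ τ
  simp only [P_update, Matrix.sub_apply, sub_mul]

theorem P_update_smul (B : V → M2) (x : V) (c : ℂ) (A : M2) :
    P (Function.update B x (c • A)) = c • P (Function.update B x A) := by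
  ext σ τ
  simp only [P_update, Matrix.smul_apply, smul_eq_mul, mul_assoc]

/-- `A` at the site `x`. -/
def st (x : V) (A : M2) : Opr V := P (Function.update (fun _ => 1) x A)

theorem st_mul_P (x : V) (A : M2) (B : V → M2) :
    st x A * P B = P (Function.update B x (A * B x)) := by
  rw [st, P_mul]
  congr 1
  ext1 y
  by_cases h : y = x
  · subst h; simp
  · simp [Function.update_of_ne h]

theorem P_mul_st (x : V) (A : M2) (B : V → M2) :
    P B * st x A = P (Function.update B x (B x * A)) := by
  rw [st, P_mul]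
  congr 1
  ext1 y
  by_cases h : y = x
  · subst h; simp
  · simp [Function.update_of_ne h]

theorem st_add (x : V) (A A' : M2) : st x (A + A') = st x A + st x A' := P_update_add _ _ _ _

theorem st_sub (x : V) (A A' : M2) : st x (A - A') = st x A - st x A' := P_update_sub _ _ _ _

theorem st_smul (x : V) (c : ℂ) (A : M2) : st x (c • A) = c • st x A := P_update_smul _ _ _ _

theorem st_mul_st (x : V) (A B : M2) : st x A * st x B = st x (A * B) := by
  rw [show st x B = P (Function.update (fun _ => 1) x B) from rfl, st_mul_P]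
  simp [st, Function.update_idem]

theorem st_comm {x y : V} (h : x ≠ y) (A B : M2) : st x A * st y B = st y B * st x A := by
  conv_lhs => rw [show st y B = P (Function.update (fun _ => 1) y B) from rfl, st_mul_P]
  conv_rhs => rw [show st y B = P (Function.update (fun _ => 1) y B) from rfl, P_mul_st]
  simp [Function.update_of_ne h]

/-- Sum over the block of a one site matrix. -/
def Sg (b : Finset V) (A : M2) : Opr V := ∑ x ∈ b, st x A

theorem Sg_add (b : Finset V) (A A' : M2) : Sg b (A + A') = Sg b A + Sg b A' := by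
  simp [Sg, st_add, Finset.sum_add_distrib]

theorem Sg_sub (b : Finset V) (A A' : M2) : Sg b (A - A') = Sg b A - Sg b A' := by
  simp [Sg, st_sub, Finset.sum_sub_distrib]

theorem Sg_smul (b : Finset V) (c : ℂ) (A : M2) : Sg b (c • A) = c • Sg b A := by
  simp [Sg, st_smul, Finset.smul_sum]

theorem Sg_comm (b : Finset V) (A B : M2) :
    Sg b A * Sg b B - Sg b B * Sg b A = Sg b (A * B - B * A) := by
  simp only [Sg, Finset.sum_mul_sum]
  rw [Finset.sum_comm (f := fun i j => st i B * st j A), ← Finset.sum_sub_distrib]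
  refine Finset.sum_congr rfl fun x hx => ?_
  rw [← Finset.sum_sub_distrib, Finset.sum_eq_single x]
  · rw [st_mul_st, st_mul_st, st_sub]
  · intro y _ hy
    rw [st_comm (Ne.symm hy), sub_self]
  · intro h; exact absurd hx h

/-- The matrix `G` at all sites of the block. -/
def blk (b : Finset V) (G : M2) : V → M2 := fun y => if y ∈ b then G else 1

/-- `G` acting at all sites of the block. -/
def pr (b : Finset V) (G : M2) : Opr V := P (blk b G)

theorem pr_mul (b : Finset V) (G H : M2) : pr b G * pr b H = pr b (G * H) := by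
  rw [pr, pr, P_mul, pr]
  congr 1
  ext1 y
  simp only [blk]
  split_ifs <;> simp

theorem pr_one (b : Finset V) : pr b (1 : M2) = 1 := by
  rw [pr, ← P_one]
  congr 1
  ext1 y
  simp [blk]

theorem Sg_mul_pr (b : Finset V) (A G : M2) :
    Sg b A * pr b G = ∑ x ∈ b, P (Function.update (blk b G) x (A * G)) := by
  rw [Sg, Finset.sum_mul]
  refine Finset.sum_congr rfl fun x hx => ?_
  rw [pr, st_mul_P]
  simp [blk, hx]

theorem pr_mul_Sg (b : Finset V) (A G : M2) :
    pr b G * Sg b A = ∑ x ∈ b, P (Function.update (blk b G) x (G * A)) := by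
  rw [Sg, Finset.mul_sum]
  refine Finset.sum_congr rfl fun x hx => ?_
  rw [pr, P_mul_st]
  simp [blk, hx]

/-- Lowering, raising, `S³`. -/
def sm : M2 := !![0, 0; 1, 0]
/-- Raising matrix. -/
def sp : M2 := !![0, 1; 0, 0]
/-- Third component. -/
noncomputable def sz : M2 := !![1 / 2, 0; 0, -(1 / 2)]

theorem comm_sz_sm : sz * sm - sm * sz = -sm := by
  ext i j; fin_cases i <;> fin_cases j <;> simp [sz, sm, Matrix.mul_apply, Fin.sum_univ_two] <;>
    norm_num

theorem comm_sz_sp : sz * sp - sp * sz = sp := by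
  ext i j; fin_cases i <;> fin_cases j <;> simp [sz, sp, Matrix.mul_apply, Fin.sum_univ_two] <;>
    norm_num

theorem comm_sp_sm : sp * sm - sm * sp = (2 : ℂ) • sz := by
  ext i j; fin_cases i <;> fin_cases j <;>
    simp [sz, sp, sm, Matrix.mul_apply, Fin.sum_univ_two]

/-- Number of down spins in the block. -/
def nb (b : Finset V) (σ : V → Fin 2) : ℤ := ∑ y ∈ b, ((σ y : ℕ) : ℤ)

theorem nb_nonneg (b : Finset V) (σ : V → Fin 2) : 0 ≤ nb b σ :=
  Finset.sum_nonneg fun _ _ => by positivity

theorem nb_le (b : Finset V) (σ : V → Fin 2) : nb b σ ≤ b.card := by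
  have : nb b σ ≤ ∑ _y ∈ b, (1 : ℤ) := Finset.sum_le_sum fun y _ => by
    have := (σ y).2; omega
  simpa using this

/-- Pinching. -/
def Pi (b : Finset V) (q : ℤ) (X : Opr V) : Opr V :=
  Matrix.of fun σ τ => if nb b σ - nb b τ = q then X σ τ else 0

theorem Pi_add (b : Finset V) (q : ℤ) (X Y : Opr V) : Pi b q (X + Y) = Pi b q X + Pi b q Y := by
  ext σ τ; simp only [Pi, Matrix.of_apply, Matrix.add_apply]; split_ifs <;> simp

theorem Pi_sub (b : Finset V) (q : ℤ) (X Y : Opr V) : Pi b q (X - Y) = Pi b q X - Pi b q Y := by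
  ext σ τ; simp only [Pi, Matrix.of_apply, Matrix.sub_apply]; split_ifs <;> simp

theorem Pi_smul (b : Finset V) (q : ℤ) (c : ℂ) (X : Opr V) : Pi b q (c • X) = c • Pi b q X := by
  ext σ τ; simp only [Pi, Matrix.of_apply, Matrix.smul_apply]; split_ifs <;> simp

/-- An operator shifting the number of down spins by `r`. -/
def Shift (b : Finset V) (r : ℤ) (Y : Opr V) : Prop := ∀ σ τ, Y σ τ ≠ 0 → nb b σ - nb b τ = r

theorem Shift.mul_Pi {b : Finset V} {r : ℤ} {Y : Opr V} (h : Shift b r Y) (q : ℤ) (X : Opr V) :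
    Y * Pi b q X = Pi b (q + r) (Y * X) := by
  ext σ τ
  simp only [Pi, Matrix.mul_apply, Matrix.of_apply]
  by_cases hq : nb b σ - nb b τ = q + r
  · rw [if_pos hq]
    refine Finset.sum_congr rfl fun ρ _ => ?_
    by_cases hY : Y σ ρ = 0
    · simp [hY]
    · have := h _ _ hY
      rw [if_pos (by omega)]
  · rw [if_neg hq]
    refine Finset.sum_eq_zero fun ρ _ => ?_
    by_cases hY : Y σ ρ = 0
    · simp [hY]
    · have := h _ _ hY
      rw [if_neg (by omega), mul_zero]

theorem Shift.Pi_mul {b : Finset V} {r : ℤ} {Y : Opr V} (h : Shift b r Y) (q : ℤ) (X : Opr V) :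
    Pi b q X * Y = Pi b (q + r) (X * Y) := by
  ext σ τ
  simp only [Pi, Matrix.mul_apply, Matrix.of_apply]
  by_cases hq : nb b σ - nb b τ = q + r
  · rw [if_pos hq]
    refine Finset.sum_congr rfl fun ρ _ => ?_
    by_cases hY : Y ρ τ = 0
    · simp [hY]
    · have := h _ _ hY
      rw [if_pos (by omega)]
  · rw [if_neg hq]
    refine Finset.sum_eq_zero fun ρ _ => ?_
    by_cases hY : Y ρ τ = 0
    · simp [hY]
    · have := h _ _ hY
      rw [if_neg (by omega), zero_mul]

theorem st_apply (x : V) (A : M2) (σ τ : V → Fin 2) :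
    st x A σ τ = A (σ x) (τ x) * if (∀ y, y ≠ x → σ y = τ y) then 1 else 0 := by
  rw [st, P_update]
  congr 1
  split_ifs with h
  · exact Finset.prod_eq_one fun y hy => by
      rw [h y (Finset.ne_of_mem_erase hy), Matrix.one_apply_eq]
  · push Not at h
    obtain ⟨y, hy, hne⟩ := h
    exact Finset.prod_eq_zero (Finset.mem_erase.2 ⟨hy, Finset.mem_univ y⟩)
      (Matrix.one_apply_ne hne)

theorem nb_of_agree {b : Finset V} {x : V} (hx : x ∈ b) {σ τ : V → Fin 2}
    (h : ∀ y, y ≠ x → σ y = τ y) : nb b σ - nb b τ = ((σ x : ℕ) : ℤ) - ((τ x : ℕ) : ℤ) := by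
  rw [nb, nb, ← Finset.sum_sub_distrib, Finset.sum_eq_single x]
  · intro y _ hy; rw [h y hy, sub_self]
  · intro h'; exact absurd hx h'

theorem shift_st {b : Finset V} {x : V} (hx : x ∈ b) (A : M2) (r : ℤ)
    (hA : ∀ i j, A i j ≠ 0 → ((i : ℕ) : ℤ) - ((j : ℕ) : ℤ) = r) : Shift b r (st x A) := by
  intro σ τ h
  rw [st_apply] at h
  have h1 := left_ne_zero_of_mul h
  have h2 := right_ne_zero_of_mul h
  have h3 : ∀ y, y ≠ x → σ y = τ y := by
    by_contra hc
    exact h2 (if_neg hc)
  rw [nb_of_agree hx h3]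
  exact hA _ _ h1

theorem Shift.add {b : Finset V} {r : ℤ} {X Y : Opr V} (hX : Shift b r X) (hY : Shift b r Y) :
    Shift b r (X + Y) := by
  intro σ τ h
  by_cases h1 : X σ τ = 0
  · exact hY σ τ fun h2 => h (by rw [Matrix.add_apply, h1, h2, add_zero])
  · exact hX σ τ h1

theorem shift_sum {ι : Type} {b : Finset V} {r : ℤ} (s : Finset ι) (X : ι → Opr V)
    (h : ∀ i ∈ s, Shift b r (X i)) : Shift b r (∑ i ∈ s, X i) := by
  intro σ τ hne
  rw [Matrix.sum_apply] at hne
  obtain ⟨i, hi, h'⟩ := Finset.exists_ne_zero_of_sum_ne_zero hne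
  exact h i hi _ _ h'

theorem shift_Sm (b : Finset V) : Shift b 1 (Sg b sm) :=
  shift_sum _ _ fun x hx => shift_st hx _ _ fun i j h => by
    fin_cases i <;> fin_cases j <;> simp [sm] at h ⊢

theorem shift_Sp (b : Finset V) : Shift b (-1) (Sg b sp) :=
  shift_sum _ _ fun x hx => shift_st hx _ _ fun i j h => by
    fin_cases i <;> fin_cases j <;> simp [sp] at h ⊢

theorem Sz_eq (b : Finset V) :
    Sg b sz = Matrix.diagonal fun σ : V → Fin 2 => (b.card : ℂ) / 2 - (nb b σ : ℂ) := by
  ext σ τ
  rw [Sg, Matrix.sum_apply]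
  by_cases h : σ = τ
  · subst h
    rw [Matrix.diagonal_apply_eq]
    have : ∀ x ∈ b, st x sz σ σ = 1 / 2 - ((σ x : ℕ) : ℂ) := by
      intro x _
      rw [st_apply, if_pos (fun _ _ => rfl), mul_one]
      generalize σ x = i
      fin_cases i <;> simp [sz]; norm_num
    rw [Finset.sum_congr rfl this, Finset.sum_sub_distrib, Finset.sum_const, nb]
    push_cast
    rw [nsmul_eq_mul]; ring
  · rw [Matrix.diagonal_apply_ne _ h]
    refine Finset.sum_eq_zero fun x _ => ?_
    rw [st_apply]
    by_cases hx : σ x = τ x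
    · rw [if_neg, mul_zero]
      intro hc
      exact h (funext fun y => by
        by_cases hy : y = x
        · rw [hy, hx]
        · exact hc y hy)
    · have : sz (σ x) (τ x) = 0 := by
        revert hx
        generalize σ x = i
        generalize τ x = j
        intro hx
        fin_cases i <;> fin_cases j <;> simp [sz] at hx ⊢
      rw [this, zero_mul]

theorem comm_Sz_apply (b : Finset V) (X : Opr V) (σ τ : V → Fin 2) :
    (Sg b sz * X - X * Sg b sz) σ τ = -((nb b σ - nb b τ : ℤ) : ℂ) * X σ τ := by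
  rw [Sz_eq, Matrix.sub_apply, Matrix.diagonal_mul, Matrix.mul_diagonal]
  push_cast
  ring

theorem Pi_comm_Sz (b : Finset V) (q : ℤ) (X : Opr V) :
    Pi b q (Sg b sz * X - X * Sg b sz) = (-(q : ℂ)) • Pi b q X := by
  ext σ τ
  simp only [Pi, Matrix.of_apply, Matrix.smul_apply, smul_eq_mul]
  split_ifs with h
  · rw [comm_Sz_apply, h]
  · simp

end Vale.Agent.P361.LRO.TwJ
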