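import Vale.Agent.P361.LRO.Tw.J.Law3

/-!
P361, block twist, part 11: for a matrix commuting with the block spin the law of `p` given `r`
is uniform on `0, …, N`; hence `tr W exp(-τ N_b) ≤ (|b| + 1) tr W exp(-τ (down spins of b))`.
-/

namespace Vale.Agent.P361.LRO.TwJ

set_option linter.all false

open Matrix Finset
open scoped ComplexOrder

variable {V : Type} [Fintype V] [DecidableEq V]

theorem cm_Om_comm_Dn (b : Finset V) : cm (Om b) * cm (Dn b) = cm (Dn b) * cm (Om b) := by
  rw [cm_Om, cm_Dn]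
  simp only [Matrix.mul_sub, Matrix.sub_mul, Matrix.mul_smul, Matrix.smul_mul, mul_one, one_mul,
    Cas_Sz, smul_sub, smul_smul]
  ext σ τ
  simp only [Matrix.sub_apply, Matrix.smul_apply, smul_eq_mul]
  ring

theorem cm_smsp (b : Finset V) : Sg b sm * Sg b sp =
    -cm (Om b) + (((b.card : ℝ) + 1 : ℝ) : ℂ) • cm (Dn b) - cm (Dn b) * cm (Dn b) := by
  have h : Cas b = Sg b sm * Sg b sp + Sg b sz * Sg b sz + Sg b sz := rfl
  rw [cm_Om, cm_Dn, h]
  simp only [Matrix.mul_sub, Matrix.sub_mul, Matrix.mul_smul, Matrix.smul_mul, mul_one, one_mul,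
    smul_sub, smul_smul]
  ext σ τ
  simp only [Matrix.add_apply, Matrix.sub_apply, Matrix.smul_apply, Matrix.neg_apply, smul_eq_mul]
  push_cast
  ring

theorem cm_spsm (b : Finset V) : Sg b sp * Sg b sm =
    -cm (Om b) + (((b.card : ℝ) - 1 : ℝ) : ℂ) • cm (Dn b) - cm (Dn b) * cm (Dn b) +
      ((b.card : ℝ) : ℂ) • (1 : Opr V) := by
  rw [Sp_Sm, cm_smsp]
  have h : Sg b sz = (((b.card : ℝ) / 2 : ℝ) : ℂ) • (1 : Opr V) - cm (Dn b) := by
    rw [cm_Dn]; abel
  rw [h]
  ext σ τ
  simp only [Matrix.add_apply, Matrix.sub_apply, Matrix.smul_apply, Matrix.neg_apply, smul_eq_mul]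
  push_cast
  ring

theorem sp_Dn (b : Finset V) : Sg b sp * cm (Dn b) = (cm (Dn b) + 1) * Sg b sp := by
  rw [cm_Dn]
  have h := Sz_Sp b
  have h' : Sg b sp * Sg b sz = Sg b sz * Sg b sp - Sg b sp := by rw [h]; abel
  simp only [Matrix.mul_sub, Matrix.add_mul, Matrix.sub_mul, Matrix.mul_smul, Matrix.smul_mul,
    mul_one, one_mul, h']
  abel

theorem sp_aeval (b : Finset V) (Q : Polynomial ℝ) :
    Sg b sp * cm (Polynomial.aeval (Dn b) Q) =
      cm (Polynomial.aeval (Dn b) (Q.comp (Polynomial.X + 1))) * Sg b sp := by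
  induction Q using Polynomial.induction_on with
  | C a =>
    rw [Polynomial.C_comp, Polynomial.aeval_C, Algebra.algebraMap_eq_smul_one, cm_smul, cm_one,
      Matrix.mul_smul, Matrix.smul_mul, mul_one, one_mul]
  | add p q hp hq =>
    rw [map_add, cm_add, mul_add, hp, hq, Polynomial.add_comp, map_add, cm_add, add_mul]
  | monomial n a ih =>
    have e : (Polynomial.C a * Polynomial.X ^ n * Polynomial.X).comp (Polynomial.X + 1) =
        (Polynomial.C a * Polynomial.X ^ n).comp (Polynomial.X + 1) * (Polynomial.X + 1) := by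
      rw [Polynomial.mul_comp, Polynomial.X_comp]
    rw [pow_succ, ← mul_assoc, map_mul, Polynomial.aeval_X, cm_mul, ← mul_assoc, ih, mul_assoc,
      sp_Dn, e, map_mul, cm_mul, ← mul_assoc, map_add,
      Polynomial.aeval_X, map_one, cm_add, cm_one]

/-- The algebraic identity behind uniformity. -/
theorem unif0 {W : Matrix (V → Fin 2) (V → Fin 2) ℝ} {b : Finset V}
    (hcomm : Sg b sp * cm W = cm W * Sg b sp) (P Q : Polynomial ℝ) :
    Matrix.trace (cm W * (cm (Polynomial.aeval (Om b) P) * cm (Polynomial.aeval (Dn b) Q) *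
        (Sg b sm * Sg b sp))) =
      Matrix.trace (cm W * (cm (Polynomial.aeval (Om b) P) *
        cm (Polynomial.aeval (Dn b) (Q.comp (Polynomial.X + 1))) * (Sg b sp * Sg b sm))) := by
  have hP : Sg b sp * cm (Polynomial.aeval (Om b) P) =
      cm (Polynomial.aeval (Om b) P) * Sg b sp := by
    apply comm_cm_aeval
    rw [cm_Om, Matrix.mul_sub, Matrix.sub_mul, Matrix.mul_smul, Matrix.smul_mul, mul_one, one_mul,
      Cas_Sp]
  have hQ := sp_aeval b Q
  set PP := cm (Polynomial.aeval (Om b) P)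
  set QQ := cm (Polynomial.aeval (Dn b) Q)
  set Q' := cm (Polynomial.aeval (Dn b) (Q.comp (Polynomial.X + 1)))
  set S := Sg b sp
  set T := Sg b sm
  have e1 : cm W * (PP * QQ * (T * S)) = (cm W * PP * QQ * T) * S := by noncomm_ring
  rw [e1, Matrix.trace_mul_comm]
  congr 1
  calc S * (cm W * PP * QQ * T) = (S * cm W) * PP * QQ * T := by noncomm_ring
    _ = cm W * (S * PP) * QQ * T := by rw [hcomm]; noncomm_ring
    _ = cm W * PP * (S * QQ) * T := by rw [hP]; noncomm_ring
    _ = cm W * (PP * Q' * (S * T)) := by rw [hQ]; noncomm_ring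

section law

variable {ι : Type} [Fintype ι] {μ : ι → ℝ} {N r p : ι → ℕ} {b : Finset V}
  {W : Matrix (V → Fin 2) (V → Fin 2) ℝ}

/-- Uniformity in the form of moments. -/
theorem unif1 (hN : ∀ i, N i + 2 * r i = b.card)
    (h : ∀ P Q : Polynomial ℝ, ∑ i, μ i * (P.eval ((r i : ℝ) * ((b.card : ℝ) - r i + 1)) *
      Q.eval ((r i : ℝ) + p i)) =
        Matrix.trace (W * (Polynomial.aeval (Om b) P * Polynomial.aeval (Dn b) Q)))
    (hcomm : Sg b sp * cm W = cm W * Sg b sp) (P Q : Polynomial ℝ) :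
    ∑ i, μ i * (P.eval ((r i : ℝ) * ((b.card : ℝ) - r i + 1)) * Q.eval ((r i : ℝ) + p i) *
        ((p i : ℝ) * ((N i : ℝ) - p i + 1))) =
      ∑ i, μ i * (P.eval ((r i : ℝ) * ((b.card : ℝ) - r i + 1)) * Q.eval ((r i : ℝ) + p i + 1) *
        (((N i : ℝ) - p i) * (p i + 1))) := by
  have h0 := unif0 hcomm P Q
  have hOm : ∀ Q : Polynomial ℝ, cm (Polynomial.aeval (Dn b) Q) * cm (Om b) =
      cm (Om b) * cm (Polynomial.aeval (Dn b) Q) := fun Q =>
    (comm_cm_aeval (cm_Om_comm_Dn b) Q).symm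
  -- both sides as traces
  have key : ∀ (Q : Polynomial ℝ) (c d : ℝ), Matrix.trace (cm W *
      (cm (Polynomial.aeval (Om b) P) * cm (Polynomial.aeval (Dn b) Q) *
        (-cm (Om b) + ((c : ℝ) : ℂ) • cm (Dn b) - cm (Dn b) * cm (Dn b) +
          ((d : ℝ) : ℂ) • (1 : Opr V)))) =
      ((∑ i, μ i * (P.eval ((r i : ℝ) * ((b.card : ℝ) - r i + 1)) * Q.eval ((r i : ℝ) + p i) *
        (-((r i : ℝ) * ((b.card : ℝ) - r i + 1)) + c * ((r i : ℝ) + p i) -
          ((r i : ℝ) + p i) ^ 2 + d)) : ℝ) : ℂ) := by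
    intro Q c d
    have e1 : cm W * (cm (Polynomial.aeval (Om b) P) * cm (Polynomial.aeval (Dn b) Q) *
        (-cm (Om b) + ((c : ℝ) : ℂ) • cm (Dn b) - cm (Dn b) * cm (Dn b) +
          ((d : ℝ) : ℂ) • (1 : Opr V))) =
        cm (W * (-(Polynomial.aeval (Om b) (P * Polynomial.X) * Polynomial.aeval (Dn b) Q) +
          c • (Polynomial.aeval (Om b) P * Polynomial.aeval (Dn b) (Q * Polynomial.X)) -
          Polynomial.aeval (Om b) P * Polynomial.aeval (Dn b) (Q * Polynomial.X ^ 2) +
          d • (Polynomial.aeval (Om b) P * Polynomial.aeval (Dn b) Q))) := by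
      have hneg : ∀ A : Matrix (V → Fin 2) (V → Fin 2) ℝ, cm (-A) = -cm A := by
        intro A; ext σ τ; simp [cm]
      rw [cm_mul]
      congr 1
      simp only [map_mul, Polynomial.aeval_X, map_pow, pow_two, cm_add, cm_sub, hneg, cm_smul,
        cm_mul, mul_add, mul_sub, mul_neg, Matrix.mul_smul, mul_one]
      have := hOm Q
      simp only [mul_assoc] at this ⊢
      rw [this]
    rw [e1, cm_trace]
    congr 1
    simp only [Matrix.mul_add, Matrix.mul_sub, Matrix.mul_neg, Matrix.mul_smul, Matrix.trace_add,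
      Matrix.trace_sub, Matrix.trace_neg, Matrix.trace_smul, ← h, smul_eq_mul]
    rw [← Finset.sum_neg_distrib, Finset.mul_sum, Finset.mul_sum, ← Finset.sum_add_distrib,
      ← Finset.sum_sub_distrib, ← Finset.sum_add_distrib]
    refine Finset.sum_congr rfl fun i _ => ?_
    simp only [Polynomial.eval_mul, Polynomial.eval_X, Polynomial.eval_pow]
    ring
  have k1 := key Q ((b.card : ℝ) + 1) 0
  have k2 := key (Q.comp (Polynomial.X + 1)) ((b.card : ℝ) - 1) (b.card : ℝ)
  rw [← cm_spsm] at k2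
  rw [Complex.ofReal_zero, zero_smul, add_zero, ← cm_smsp] at k1
  rw [k1, k2] at h0
  have h1 := Complex.ofReal_injective h0
  have hb : ∀ i, (b.card : ℝ) = N i + 2 * r i := fun i => by
    rw [← hN i]; push_cast; ring
  calc _ = _ := by
        refine Finset.sum_congr rfl fun i _ => ?_
        congr 2
        rw [hb i]; ring
    _ = _ := h1
    _ = _ := by
        refine Finset.sum_congr rfl fun i _ => ?_
        rw [Polynomial.eval_comp]
        simp only [Polynomial.eval_add, Polynomial.eval_X, Polynomial.eval_one]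
        congr 2
        rw [hb i]; ring

/-- Lagrange interpolation at the integers. -/
theorem exists_polyD (n : ℕ) (g : ℕ → ℝ) :
    ∃ P : Polynomial ℝ, ∀ q : ℕ, q ≤ n → P.eval (q : ℝ) = g q := by
  classical
  refine ⟨Lagrange.interpolate (Finset.range (n + 1)) (fun q : ℕ => (q : ℝ)) g, fun q hq => ?_⟩
  exact Lagrange.eval_interpolate_at_node g (fun a _ b _ h => Nat.cast_injective h)
    (Finset.mem_range.2 (by omega))

/-- The weight of `(r, p)`. -/
noncomputable def nu (μ : ι → ℝ) (r p : ι → ℕ) (a c : ℕ) : ℝ :=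
  ∑ i, μ i * if r i = a ∧ p i = c then 1 else 0

theorem nu_step (hN : ∀ i, N i + 2 * r i = b.card) (hp : ∀ i, p i ≤ N i)
    (h : ∀ P Q : Polynomial ℝ, ∑ i, μ i * (P.eval ((r i : ℝ) * ((b.card : ℝ) - r i + 1)) *
      Q.eval ((r i : ℝ) + p i)) =
        Matrix.trace (W * (Polynomial.aeval (Om b) P * Polynomial.aeval (Dn b) Q)))
    (hcomm : Sg b sp * cm W = cm W * Sg b sp) {a c : ℕ} (hac : 2 * a + c + 1 ≤ b.card) :
    nu μ r p a (c + 1) = nu μ r p a c := by
  obtain ⟨P, hP⟩ := exists_poly b.card (fun x => if x = a then 1 else 0)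
  obtain ⟨Q, hQ⟩ := exists_polyD (b.card + 1) (fun x => if x = a + c + 1 then 1 else 0)
  have h1 := unif1 hN h hcomm P Q
  have hP' : ∀ i, P.eval ((r i : ℝ) * ((b.card : ℝ) - r i + 1)) = if r i = a then 1 else 0 :=
    fun i => hP (r i) (by have := hN i; omega)
  have hQ' : ∀ i, Q.eval ((r i : ℝ) + p i) = if r i + p i = a + c + 1 then 1 else 0 := by
    intro i
    rw [← Nat.cast_add]
    exact hQ _ (by have := hN i; have := hp i; omega)
  have hQ'' : ∀ i, Q.eval ((r i : ℝ) + p i + 1) = if r i + p i + 1 = a + c + 1 then 1 else 0 := by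
    intro i
    have : ((r i : ℝ) + p i + 1) = ((r i + p i + 1 : ℕ) : ℝ) := by push_cast; ring
    rw [this]
    exact hQ _ (by have := hN i; have := hp i; omega)
  simp only [hP', hQ', hQ''] at h1
  have hac' : (0 : ℝ) < ((b.card : ℝ) - 2 * a - c) * (c + 1) := by
    have : ((2 * a + c + 1 : ℕ) : ℝ) ≤ b.card := by exact_mod_cast hac
    push_cast at this
    have h2 : 0 < (b.card : ℝ) - 2 * a - c := by linarith
    positivity
  have e1 : ∀ i, μ i * ((if r i = a then (1 : ℝ) else 0) *
      (if r i + p i = a + c + 1 then 1 else 0) * ((p i : ℝ) * ((N i : ℝ) - p i + 1))) =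
      (((b.card : ℝ) - 2 * a - c) * (c + 1)) *
        (μ i * if r i = a ∧ p i = c + 1 then 1 else 0) := by
    intro i
    by_cases h2 : r i = a
    · by_cases h3 : p i = c + 1
      · have h4 : (N i : ℝ) = b.card - 2 * a := by
          have := hN i; rw [h2] at this
          rw [← this]; push_cast; ring
        rw [if_pos h2, if_pos (by omega), if_pos ⟨h2, h3⟩, h3, h4]
        push_cast
        ring
      · rw [if_neg (show ¬ (r i + p i = a + c + 1) by omega),
          if_neg (show ¬ (r i = a ∧ p i = c + 1) from fun h => h3 h.2)]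
        simp
    · rw [if_neg h2, if_neg (show ¬ (r i = a ∧ p i = c + 1) from fun h => h2 h.1)]
      simp
  have e2 : ∀ i, μ i * ((if r i = a then (1 : ℝ) else 0) *
      (if r i + p i + 1 = a + c + 1 then 1 else 0) * (((N i : ℝ) - p i) * ((p i : ℝ) + 1))) =
      (((b.card : ℝ) - 2 * a - c) * (c + 1)) *
        (μ i * if r i = a ∧ p i = c then 1 else 0) := by
    intro i
    by_cases h2 : r i = a
    · by_cases h3 : p i = c
      · have h4 : (N i : ℝ) = b.card - 2 * a := by
          have := hN i; rw [h2] at this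
          rw [← this]; push_cast; ring
        rw [if_pos h2, if_pos (by omega), if_pos ⟨h2, h3⟩, h3, h4]
        ring
      · rw [if_neg (show ¬ (r i + p i + 1 = a + c + 1) by omega),
          if_neg (show ¬ (r i = a ∧ p i = c) from fun h => h3 h.2)]
        simp
    · rw [if_neg h2, if_neg (show ¬ (r i = a ∧ p i = c) from fun h => h2 h.1)]
      simp
  simp only [e1, e2, ← Finset.mul_sum] at h1
  exact mul_left_cancel₀ hac'.ne' h1

theorem nu_eq (hN : ∀ i, N i + 2 * r i = b.card) (hp : ∀ i, p i ≤ N i)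
    (h : ∀ P Q : Polynomial ℝ, ∑ i, μ i * (P.eval ((r i : ℝ) * ((b.card : ℝ) - r i + 1)) *
      Q.eval ((r i : ℝ) + p i)) =
        Matrix.trace (W * (Polynomial.aeval (Om b) P * Polynomial.aeval (Dn b) Q)))
    (hcomm : Sg b sp * cm W = cm W * Sg b sp) {a c : ℕ} (hac : 2 * a + c ≤ b.card) :
    nu μ r p a c = nu μ r p a 0 := by
  induction c with
  | zero => rfl
  | succ c ih => rw [nu_step hN hp h hcomm (by omega), ih (by omega)]

theorem nu_nonneg (hμ : ∀ i, 0 ≤ μ i) (a c : ℕ) : 0 ≤ nu μ r p a c :=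
  Finset.sum_nonneg fun i _ => mul_nonneg (hμ i) (by split_ifs <;> norm_num)

/-- `E[g(r)] ≤ (|b| + 1) E[g(r); p = 0]`. -/
theorem law_le (hμ : ∀ i, 0 ≤ μ i) (hN : ∀ i, N i + 2 * r i = b.card) (hp : ∀ i, p i ≤ N i)
    (h : ∀ P Q : Polynomial ℝ, ∑ i, μ i * (P.eval ((r i : ℝ) * ((b.card : ℝ) - r i + 1)) *
      Q.eval ((r i : ℝ) + p i)) =
        Matrix.trace (W * (Polynomial.aeval (Om b) P * Polynomial.aeval (Dn b) Q)))
    (hcomm : Sg b sp * cm W = cm W * Sg b sp) {g : ℕ → ℝ} (hg : ∀ x, 2 * x ≤ b.card → 0 ≤ g x) :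
    ∑ i, μ i * g (r i) ≤ ((b.card : ℝ) + 1) * ∑ i, μ i * (if p i = 0 then g (r i) else 0) := by
  classical
  -- the sum over `p i = c`
  have e0 : ∀ c : ℕ, ∑ i, μ i * (if p i = c then g (r i) else 0) =
      ∑ a ∈ Finset.range (b.card + 1), nu μ r p a c * g a := by
    intro c
    simp only [nu, Finset.sum_mul]
    rw [Finset.sum_comm]
    refine Finset.sum_congr rfl fun i _ => ?_
    rw [Finset.sum_eq_single (r i)]
    · by_cases h1 : p i = c
      · simp [h1]
      · simp [h1]
    · intro a _ ha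
      rw [if_neg (fun h => ha h.1.symm)]
      simp
    · intro h1
      exact absurd (Finset.mem_range.2 (by have := hN i; omega)) h1
  have e1 : ∀ c : ℕ, ∑ i, μ i * (if p i = c then g (r i) else 0) ≤
      ∑ i, μ i * (if p i = 0 then g (r i) else 0) := by
    intro c
    rw [e0, e0]
    refine Finset.sum_le_sum fun a _ => ?_
    by_cases h1 : 2 * a ≤ b.card
    · by_cases h2 : 2 * a + c ≤ b.card
      · rw [nu_eq hN hp h hcomm h2]
      · have : nu μ r p a c = 0 := by
          refine Finset.sum_eq_zero fun i _ => ?_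
          rw [if_neg, mul_zero]
          rintro ⟨h3, h4⟩
          have := hN i
          have := hp i
          omega
        rw [this, zero_mul]
        exact mul_nonneg (nu_nonneg hμ _ _) (hg a h1)
    · have : ∀ c, nu μ r p a c = 0 := by
        intro c
        refine Finset.sum_eq_zero fun i _ => ?_
        rw [if_neg, mul_zero]
        rintro ⟨h3, h4⟩
        have := hN i
        omega
      rw [this, this]
  calc ∑ i, μ i * g (r i) =
        ∑ c ∈ Finset.range (b.card + 1), ∑ i, μ i * (if p i = c then g (r i) else 0) := by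
        rw [Finset.sum_comm]
        refine Finset.sum_congr rfl fun i _ => ?_
        rw [← Finset.mul_sum, Finset.sum_ite_eq, if_pos]
        exact Finset.mem_range.2 (by have := hN i; have := hp i; omega)
    _ ≤ ∑ c ∈ Finset.range (b.card + 1), ∑ i, μ i * (if p i = 0 then g (r i) else 0) :=
        Finset.sum_le_sum fun c _ => e1 c
    _ = _ := by
        rw [Finset.sum_const, Finset.card_range, nsmul_eq_mul]
        push_cast
        ring

end law

end Vale.Agent.P361.LRO.TwJ
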